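import Claimed.Agent.R252.Mlk.Main
import Claimed.Agent.R252.S6a.Contract

/-!
# Row 252, BOX 2 (unit MLK), file 5: ADAPTOR to the form `k6a_MLK` of unit S6a            (helper206)
`mlk_k6a : 2 ≤ n → 0 < ε → ∃ C, 0 ≤ C ∧ k6a_MLK n ε C`, from `mlk_scaled`.
-/

set_option autoImplicit false
open scoped BigOperators Classical

namespace Claimed.Agent.R252

theorem mlk_k6a (n : ℕ) (hn : 2 ≤ n) (ε : ℝ) (hε : 0 < ε) : ∃ C : ℝ, 0 ≤ C ∧ k6a_MLK n ε C := by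
  obtain ⟨C0, hC0, hmain⟩ := mlk_scaled.{0, 0} n hn ε hε
  refine ⟨max C0 (((n ^ 2 + n : ℕ) : ℝ) + ε), le_trans hC0.le (le_max_left _ _), ?_⟩
  intro ι _ a e w r R θ lam cells hr hrR hθ hθ1 hlam he hw hcells
  obtain ⟨C, hC⟩ : ∃ C : ℝ, C = max C0 (((n ^ 2 + n : ℕ) : ℝ) + ε) := ⟨_, rfl⟩
  rw [← hC]
  have hCC0 : C0 ≤ C := by rw [hC]; exact le_max_left _ _
  have hCe : ((n ^ 2 + n : ℕ) : ℝ) + ε ≤ C := by rw [hC]; exact le_max_right _ _
  have hRr : 1 ≤ R / r := by rw [le_div_iff₀ hr]; linarith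
  have hlam0 : 0 < lam := by linarith
  have hnR : (2 : ℝ) ≤ n := by exact_mod_cast hn
  have hW0 : 0 ≤ ∑ l, w l := Finset.sum_nonneg fun l _ => hw l
  have key := hmain r lam (lam * (R / r)) θ hr hlam (by nlinarith) hθ hθ1 ι (Fin n → ℤ)
    (fun _ => Finset.univ) a e w hw (fun _ l _ k => he l k) cells
    (fun E k => ((E k : ℝ) + 1 / 2) * r)
    (by
      intro E _ E' _ hne
      obtain ⟨k, hk⟩ : ∃ k, E k ≠ E' k := by
        by_contra hcon
        exact hne (funext fun k => by_contra fun h => hcon ⟨k, h⟩)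
      refine ⟨k, ?_⟩
      have h1 : (1 : ℝ) ≤ |(E k : ℝ) - (E' k : ℝ)| := by
        have : (1 : ℤ) ≤ |E k - E' k| := Int.one_le_abs (sub_ne_zero.2 hk)
        exact_mod_cast this
      have h2 : ((E k : ℝ) + 1 / 2) * r - ((E' k : ℝ) + 1 / 2) * r = ((E k : ℝ) - (E' k : ℝ)) * r := by ring
      rw [h2, abs_mul, abs_of_pos hr]
      nlinarith)
    (by
      intro E hE E' hE' k
      have h1 := hcells E hE k
      have h2 := hcells E' hE' k
      have h3 : ((E k : ℝ) + 1 / 2) * r - ((E' k : ℝ) + 1 / 2) * r = (E k : ℝ) * r - (E' k : ℝ) * r := by ring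
      have e1 : (0 : ℝ) ≤ (E k : ℝ) * r := mul_nonneg (by exact_mod_cast h1.1) hr.le
      have e2 : (0 : ℝ) ≤ (E' k : ℝ) * r := mul_nonneg (by exact_mod_cast h2.1) hr.le
      have h4 : lam * (R / r) * r = lam * R := by field_simp
      rw [h3, h4, abs_le]
      have hR0 : 0 ≤ R := by linarith
      constructor <;> nlinarith [h1.2, h2.2])
  have hL : ∀ E ∈ cells,
      (∑ τ ∈ (Finset.univ : Finset (Fin n → ι)).filter (fun τ =>
          (∀ i, ∃ t : ℝ, ∀ k, |((E k : ℝ) + 1 / 2) * r - (a (τ i) k + t * e (τ i) k)| ≤ lam * r) ∧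
          θ ≤ |Matrix.det (Matrix.of fun i => e (τ i))|), ∏ i, w (τ i))
      = mlkCount (fun _ => Finset.univ) a e w (lam * r) θ (fun k => ((E k : ℝ) + 1 / 2) * r) := by
    intro E _
    unfold mlkCount
    rw [Fintype.piFinset_univ, Finset.sum_filter]
    refine Finset.sum_congr rfl fun τ _ => ?_
    have hiff : ((∀ i, ∃ t : ℝ, ∀ k, |((E k : ℝ) + 1 / 2) * r - (a (τ i) k + t * e (τ i) k)| ≤ lam * r) ∧
          θ ≤ |Matrix.det (Matrix.of fun i => e (τ i))|) ↔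
        (θ ≤ |Matrix.det (Matrix.of fun i => e (τ i))| ∧
          ∀ i, (fun k => ((E k : ℝ) + 1 / 2) * r) ∈ mlkTube (a (τ i)) (e (τ i)) (lam * r)) := by
      rw [and_comm]
      refine and_congr Iff.rfl (forall_congr' fun i => ?_)
      unfold mlkTube
      simp only [Set.mem_ofPred_eq, sub_sub]
    by_cases h : ((∀ i, ∃ t : ℝ, ∀ k, |((E k : ℝ) + 1 / 2) * r - (a (τ i) k + t * e (τ i) k)| ≤ lam * r) ∧
          θ ≤ |Matrix.det (Matrix.of fun i => e (τ i))|)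
    · rw [if_pos h, if_pos (hiff.1 h)]
    · rw [if_neg h, if_neg (fun h' => h (hiff.2 h'))]
  rw [Finset.sum_congr rfl fun E hE => by rw [hL E hE]]
  refine key.trans ?_
  have hprod : ∏ _i : Fin n, (∑ l, w l) ^ (1 / ((n : ℝ) - 1)) = (∑ l, w l) ^ ((n : ℝ) / ((n : ℝ) - 1)) := by
    rw [Finset.prod_const, Finset.card_univ, Fintype.card_fin, ← Real.rpow_natCast, ← Real.rpow_mul hW0]
    congr 1
    ring
  rw [hprod]
  refine mul_le_mul_of_nonneg_right ?_ (Real.rpow_nonneg hW0 _)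
  have h1 : (lam / θ) ^ (n ^ 2 + n) = lam ^ (((n ^ 2 + n : ℕ) : ℝ)) * θ ^ (-(((n ^ 2 + n : ℕ) : ℝ))) := by
    rw [div_pow, Real.rpow_natCast, Real.rpow_neg hθ.le, Real.rpow_natCast, div_eq_mul_inv]
  have h2 : (lam * (R / r)) ^ ε = lam ^ ε * (R / r) ^ ε := Real.mul_rpow hlam0.le (by linarith)
  have h3 : lam ^ (((n ^ 2 + n : ℕ) : ℝ)) * lam ^ ε ≤ lam ^ C := by
    rw [← Real.rpow_add hlam0]
    exact Real.rpow_le_rpow_of_exponent_le hlam hCe
  have h4 : θ ^ (-(((n ^ 2 + n : ℕ) : ℝ))) ≤ θ ^ (-C) := by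
    refine Real.rpow_le_rpow_of_exponent_ge hθ hθ1 ?_
    linarith
  have p1 : 0 ≤ θ ^ (-(((n ^ 2 + n : ℕ) : ℝ))) := Real.rpow_nonneg hθ.le _
  have p2 : 0 ≤ (R / r) ^ ε := Real.rpow_nonneg (by linarith) _
  have p3 : 0 ≤ lam ^ C := Real.rpow_nonneg hlam0.le _
  rw [h1, h2]
  calc C0 * (lam ^ (((n ^ 2 + n : ℕ) : ℝ)) * θ ^ (-(((n ^ 2 + n : ℕ) : ℝ)))) * (lam ^ ε * (R / r) ^ ε)
      = C0 * (lam ^ (((n ^ 2 + n : ℕ) : ℝ)) * lam ^ ε) * θ ^ (-(((n ^ 2 + n : ℕ) : ℝ))) * (R / r) ^ ε := by ring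
    _ ≤ C * lam ^ C * θ ^ (-C) * (R / r) ^ ε := by
        refine mul_le_mul_of_nonneg_right ?_ p2
        exact mul_le_mul (mul_le_mul hCC0 h3 (by positivity) (le_trans hC0.le hCC0)) h4 p1
          (mul_nonneg (le_trans hC0.le hCC0) p3)

end Claimed.Agent.R252
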