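import Claimed.Agent.R252.Mlk.Small

/-!
# Row 252, BOX 2 (unit MLK), file 3: ONE TUPLE OF CAPS (linear change of variables)            (architect helper206)            CONTRACT
PAPER-FREE.  `mlkTube p e ρ` = closed `ρ`-neighbourhood (sup norm) of the FULL affine line `p + ℝ e`.
Family `i` has all its directions within `η = θ/(4 n n! D)` of `u i`, `|det (u_1 .. u_n)| ≥ θ`, `|u i k| ≤ 1`.   `U` = matrix with columns `u i`, `Li = U⁻¹`, entries `≤ n!/θ` (`mlk_inv_bound`),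
so `|Li v|_∞ ≤ Λ |v|_∞`, `Λ = n n!/θ`.   In the coordinates `y = Li x` the tubes of family `i` are contained in sheared tubes over the `i`-th axis with slopes `≤ 1/D` and radius `ρ' = 2 Λ ρ`: `mlk_small`.
Every `sorry` is a leaf `L-252-MLK-*`.  Statements are frozen; auxiliary lemmas directly above your theorem, prefix `mlk_`; edit only your block.
-/

set_option autoImplicit false
open scoped BigOperators

namespace Claimed.Agent.R252

/-- closed `ρ`-neighbourhood (sup norm) of the full affine line `p + ℝ e` -/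
def mlkTube {n : ℕ} (p e : Fin n → ℝ) (ρ : ℝ) : Set (Fin n → ℝ) := {x | ∃ t : ℝ, ∀ i, |x i - p i - t * e i| ≤ ρ}

/-- **LEAF L-252-MLK-INV.**  `Matrix.inv_def`, `Ring.inverse_eq_inv'`, `Matrix.adjugate_apply` (`= det (U.updateRow j (Pi.single i 1))`, entries `≤ 1` in absolute value), `Matrix.det_le` with `AbsoluteValue.abs`. -/
theorem mlk_inv_bound {n : ℕ} (U : Matrix (Fin n) (Fin n) ℝ) (hU : ∀ i j, |U i j| ≤ 1) (θ : ℝ) (hθ : 0 < θ)
    (hdet : θ ≤ |U.det|) (i j : Fin n) : |U⁻¹ i j| ≤ (n.factorial : ℝ) / θ := by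
  have hd0 : 0 < |U.det| := hθ.trans_le hdet
  rw [Matrix.inv_def, Ring.inverse_eq_inv', Matrix.smul_apply, smul_eq_mul, abs_mul, abs_inv, Matrix.adjugate_apply]
  have h1 : |(U.updateRow j (Pi.single i 1)).det| ≤ (n.factorial : ℝ) := by
    have := Matrix.det_le (A := U.updateRow j (Pi.single i 1)) (abv := AbsoluteValue.abs) (x := 1) (fun a b => by
      show |(U.updateRow j (Pi.single i 1)) a b| ≤ 1
      rw [Matrix.updateRow_apply]
      split_ifs with h
      · by_cases hb : b = i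
        · subst hb; simp
        · rw [Pi.single_eq_of_ne hb]; simp
      · exact hU a b)
    simpa using this
  calc |U.det|⁻¹ * |(U.updateRow j (Pi.single i 1)).det| ≤ θ⁻¹ * (n.factorial : ℝ) := by
        refine mul_le_mul (inv_anti₀ hθ hdet) h1 (abs_nonneg _) (inv_pos.2 hθ).le
    _ = (n.factorial : ℝ) / θ := by rw [div_eq_mul_inv, mul_comm]

/-- **LEAF L-252-MLK-LIN (1).** -/
theorem mlk_mulVec_bound {n : ℕ} (L : Matrix (Fin n) (Fin n) ℝ) (lam t : ℝ) (hL : ∀ i j, |L i j| ≤ lam) (v : Fin n → ℝ)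
    (hv : ∀ k, |v k| ≤ t) (i : Fin n) : |(L.mulVec v) i| ≤ n * lam * t := by
  have h1 : |(L.mulVec v) i| ≤ ∑ j : Fin n, lam * t := by
    show |∑ j, L i j * v j| ≤ _
    refine (Finset.abs_sum_le_sum_abs _ _).trans (Finset.sum_le_sum fun j _ => ?_)
    rw [abs_mul]
    exact mul_le_mul (hL i j) (hv j) (abs_nonneg _) ((abs_nonneg _).trans (hL i j))
  refine h1.trans (le_of_eq ?_)
  rw [Finset.sum_const, Finset.card_univ, Fintype.card_fin, nsmul_eq_mul]
  ring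

/-- **LEAF L-252-MLK-LIN (2).**  `L (z - p - t e) = L z - L p - t L e` (`Matrix.mulVec_sub`, `Matrix.mulVec_smul`), `mlk_mulVec_bound`. -/
theorem mlk_tube_map {n : ℕ} (L : Matrix (Fin n) (Fin n) ℝ) (lam : ℝ) (hL : ∀ i j, |L i j| ≤ lam) (p e z : Fin n → ℝ) (ρ : ℝ)
    (hz : z ∈ mlkTube p e ρ) : L.mulVec z ∈ mlkTube (L.mulVec p) (L.mulVec e) (n * lam * ρ) := by
  obtain ⟨t, ht⟩ := hz
  refine ⟨t, fun i => ?_⟩
  have h1 : (L.mulVec z) i - (L.mulVec p) i - t * (L.mulVec e) i = (L.mulVec (z - p - t • e)) i := by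
    rw [Matrix.mulVec_sub, Matrix.mulVec_sub, Matrix.mulVec_smul]
    simp [Pi.sub_apply, Pi.smul_apply, smul_eq_mul]
  rw [h1]
  refine mlk_mulVec_bound L lam ρ hL _ (fun k => ?_) i
  simpa [Pi.sub_apply, Pi.smul_apply, smul_eq_mul] using ht k

/-- **LEAF L-252-MLK-LIN (3).**  `y_k - P_k = t E_k + r_k`, `|r_k| ≤ r` for all `k` (also `k = i`); with `s_k = E_k / E_i`: `y_k - c_k - s_k y_i = r_k - s_k r_i`, `|s_k| ≤ 1`. -/
theorem mlk_tube_sh {n : ℕ} (i : Fin n) (P E y : Fin n → ℝ) (r : ℝ) (hE : 3 / 4 ≤ E i) (hEk : ∀ k, k ≠ i → |E k| ≤ 3 / 4)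
    (hy : y ∈ mlkTube P E r) : y ∈ mlkSh i (fun k => P k - E k / E i * P i) (fun k => E k / E i) (2 * r) := by
  obtain ⟨t, ht⟩ := hy
  intro k hk
  have hEi : 0 < E i := by linarith
  have hs : |E k / E i| ≤ 1 := by
    rw [abs_div, abs_of_pos hEi, div_le_one hEi]
    exact (hEk k hk).trans hE
  have h1 : y k - (P k - E k / E i * P i) - E k / E i * y i
      = (y k - P k - t * E k) - E k / E i * (y i - P i - t * E i) := by
    field_simp
    ring
  show |y k - (P k - E k / E i * P i) - E k / E i * y i| ≤ 2 * r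
  rw [h1]
  have h2 : |E k / E i * (y i - P i - t * E i)| ≤ r := by
    rw [abs_mul]
    calc |E k / E i| * |y i - P i - t * E i| ≤ 1 * |y i - P i - t * E i| :=
          mul_le_mul_of_nonneg_right hs (abs_nonneg _)
      _ ≤ r := by rw [one_mul]; exact ht i
  calc |(y k - P k - t * E k) - E k / E i * (y i - P i - t * E i)|
      ≤ |y k - P k - t * E k| + |E k / E i * (y i - P i - t * E i)| := abs_sub _ _
    _ ≤ r + r := add_le_add (ht k) h2
    _ = 2 * r := by ring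

/-- **LEAF L-252-MLK-PACK.**  `B = ∅` trivial; else fix `b₀ ∈ B`; `b ↦ (fun i => ⌊z b i - z b₀ i⌋)` maps `B` into `Fintype.piFinset fun _ => Finset.Icc (-T) T` (card `(2T+1)^n`: `Fintype.card_piFinset`, `Int.card_Icc`) and is injective on `B`
(equal floors in all coordinates give `|z b i - z b' i| < 1` for all `i`);  `Finset.card_le_card_of_injOn`. -/
theorem mlk_pack {n : ℕ} {β : Type*} (B : Finset β) (z : β → Fin n → ℝ)
    (hsep : ∀ b ∈ B, ∀ b' ∈ B, b ≠ b' → ∃ i, 1 ≤ |z b i - z b' i|) (T : ℕ)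
    (hT : ∀ b ∈ B, ∀ b' ∈ B, ∀ i, |z b i - z b' i| ≤ T) : B.card ≤ (2 * T + 1) ^ n := by
  classical
  rcases B.eq_empty_or_nonempty with rfl | ⟨b₀, hb₀⟩
  · simp
  have hcard : (Fintype.piFinset fun _ : Fin n => Finset.Icc (-(T : ℤ)) T).card = (2 * T + 1) ^ n := by
    rw [Fintype.card_piFinset]
    simp only [Int.card_Icc, Finset.prod_const, Finset.card_univ, Fintype.card_fin]
    congr 1
    omega
  rw [← hcard]
  refine Finset.card_le_card_of_injOn (fun b i => ⌊z b i - z b₀ i⌋) (fun b hb => ?_) (fun b hb b' hb' h => ?_)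
  · rw [Finset.mem_coe, Fintype.mem_piFinset]
    intro i
    have h1 := abs_le.1 (hT b hb b₀ hb₀ i)
    rw [Finset.mem_Icc]
    constructor
    · rw [Int.le_floor]
      push_cast
      exact h1.1
    · have : (⌊z b i - z b₀ i⌋ : ℝ) ≤ T := (Int.floor_le _).trans h1.2
      exact_mod_cast this
  · by_contra hne
    obtain ⟨i, hi⟩ := hsep b hb b' hb' hne
    have h2 : ⌊z b i - z b₀ i⌋ = ⌊z b' i - z b₀ i⌋ := congrFun h i
    have h3 := Int.abs_sub_lt_one_of_floor_eq_floor h2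
    have e : z b i - z b₀ i - (z b' i - z b₀ i) = z b i - z b' i := by ring
    rw [e] at h3
    linarith

open Classical in
/-- **LEAF L-252-MLK-CAP: one tuple of caps.**
PLAN.  `U = (Matrix.of u)ᵀ` (`U k i = u i k`, `det U = det (of u)`: `Matrix.det_transpose`), `Li = U⁻¹`, `lam = n!/θ`, `Λ = n lam`.   `Li *ᵥ (u i) = Pi.single i 1` (`u i = U *ᵥ Pi.single i 1`, `Matrix.nonsing_inv_mul`, `Matrix.mulVec_mulVec`).
For `a ∈ A i`: `E = Li *ᵥ e a = Pi.single i 1 + Li *ᵥ (e a - u i)`, the second term is `≤ Λ η = 1/(4 D) ≤ 1/4`: `E i ∈ [3/4, 5/4]`, `|E k| ≤ 1/(4D)` (`k ≠ i`), slopes `|E k / E i| ≤ 1/(3D) ≤ 1/D`.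
`mlk_small` with `ρ' = 2 (Λ ρ)`, points `Li *ᵥ z b`, `c i a k = P k - E k / E i * P i`, `s i a k = E k / E i` (only `k ≠ i` is asked),
`P = Li *ᵥ p a`, corner `q' i = (Li *ᵥ q) i - Λ S` (`2 Λ S < 2 Λ ρ D^M`), `μ = (2 T + 1)^n`, `T = ⌈n ρ'⌉₊`.   Inclusion of tubes: `mlk_tube_map`, `mlk_tube_sh`; monotonicity of the left side (`Finset.sum_le_sum`, `Real.rpow_le_rpow`).
Multiplicity: two points `Li z_b, Li z_b'` in one cube of side `ρ'` have `|z_b - z_b'|_∞ = |U (Li (z_b - z_b'))|_∞ ≤ n ρ'` (`mlk_mulVec_bound` for `U`, `lam = 1`; `Matrix.mul_nonsing_inv`), `mlk_pack`.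
Constant: `2 T + 1 ≤ 2 n ρ' + 3 = 4 n² n! ρ/θ + 3 ≤ 7 n² n! ρ/θ`. -/
theorem mlk_cap (n D : ℕ) (hn : 2 ≤ n) (hD : 1 ≤ D) (ρ S θ : ℝ) (hρ : 1 ≤ ρ) (hθ : 0 < θ) (hθ1 : θ ≤ 1) (M : ℕ)
    (hM : S < ρ * (D : ℝ) ^ M) {α β : Type*} (A : Fin n → Finset α) (p e : α → Fin n → ℝ) (w : α → ℝ) (hw : ∀ a, 0 ≤ w a)
    (u : Fin n → Fin n → ℝ) (hu : ∀ i k, |u i k| ≤ 1) (hdet : θ ≤ |Matrix.det (Matrix.of u)|)
    (hcap : ∀ i, ∀ a ∈ A i, ∀ k, |e a k - u i k| ≤ θ / (4 * n * n.factorial * D))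
    (B : Finset β) (z : β → Fin n → ℝ) (hsep : ∀ b ∈ B, ∀ b' ∈ B, b ≠ b' → ∃ i, 1 ≤ |z b i - z b' i|)
    (q : Fin n → ℝ) (hS : ∀ b ∈ B, ∀ i, |z b i - q i| ≤ S) :
    ∑ b ∈ B, ∏ i, (∑ a ∈ A i, if z b ∈ mlkTube (p a) (e a) ρ then w a else 0) ^ (1 / ((n : ℝ) - 1))
      ≤ (7 * (n : ℝ) ^ 2 * n.factorial * ρ / θ) ^ n * (((n : ℝ) * 5 ^ n) ^ 2) ^ M
        * ∏ i, (∑ a ∈ A i, w a) ^ (1 / ((n : ℝ) - 1)) := by
  have hn0 : 0 < n := by omega
  have hnR : (0 : ℝ) < n := by exact_mod_cast hn0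
  have hfR : (0 : ℝ) < (n.factorial : ℝ) := by exact_mod_cast n.factorial_pos
  have hDR : (1 : ℝ) ≤ (D : ℝ) := by exact_mod_cast hD
  have hD0 : (0 : ℝ) < (D : ℝ) := by linarith
  obtain ⟨U, hUdef⟩ : ∃ U : Matrix (Fin n) (Fin n) ℝ, U = (Matrix.of u).transpose := ⟨_, rfl⟩
  have hUdet : θ ≤ |U.det| := by rw [hUdef, Matrix.det_transpose]; exact hdet
  have hUne : U.det ≠ 0 := by
    intro h
    rw [h, abs_zero] at hUdet
    linarith
  have hUunit : IsUnit U.det := isUnit_iff_ne_zero.2 hUne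
  have hUent : ∀ i j, |U i j| ≤ 1 := fun i j => by rw [hUdef]; exact hu j i
  obtain ⟨Li, hLidef⟩ : ∃ Li : Matrix (Fin n) (Fin n) ℝ, Li = U⁻¹ := ⟨_, rfl⟩
  obtain ⟨lam, hlam⟩ : ∃ lam : ℝ, lam = (n.factorial : ℝ) / θ := ⟨_, rfl⟩
  have hlam0 : 0 < lam := by rw [hlam]; positivity
  have hLi : ∀ i j, |Li i j| ≤ lam := fun i j => by
    rw [hLidef, hlam]; exact mlk_inv_bound U hUent θ hθ hUdet i j
  have hLU : Li * U = 1 := by rw [hLidef]; exact Matrix.nonsing_inv_mul U hUunit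
  have hUL : U * Li = 1 := by rw [hLidef]; exact Matrix.mul_nonsing_inv U hUunit
  have hLu : ∀ i, Li.mulVec (u i) = Pi.single i 1 := by
    intro i
    have h1 : u i = U.mulVec (Pi.single i 1) := by
      ext k
      rw [Matrix.mulVec_single_one, hUdef]
      rfl
    rw [h1, Matrix.mulVec_mulVec, hLU, Matrix.one_mulVec]
  -- directions
  have hdir : ∀ i, ∀ a ∈ A i, ∀ k, |(Li.mulVec (e a)) k - (Pi.single i 1 : Fin n → ℝ) k| ≤ 1 / (4 * D) := by
    intro i a ha k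
    have h1 : (Li.mulVec (e a)) k - (Pi.single i 1 : Fin n → ℝ) k = (Li.mulVec (e a - u i)) k := by
      rw [Matrix.mulVec_sub, hLu i]; rfl
    rw [h1]
    refine (mlk_mulVec_bound Li lam _ hLi (e a - u i) (fun l => hcap i a ha l) k).trans (le_of_eq ?_)
    rw [hlam]
    field_simp
  have hDq : 1 / (4 * (D : ℝ)) ≤ 1 / 4 := by
    rw [div_le_div_iff₀ (by positivity) (by norm_num)]
    linarith
  have hEi : ∀ i, ∀ a ∈ A i, 3 / 4 ≤ (Li.mulVec (e a)) i := by
    intro i a ha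
    have h := abs_le.1 (hdir i a ha i)
    rw [Pi.single_eq_same] at h
    linarith [h.1]
  have hEk : ∀ i, ∀ a ∈ A i, ∀ k, k ≠ i → |(Li.mulVec (e a)) k| ≤ 1 / (4 * D) := by
    intro i a ha k hk
    have h := hdir i a ha k
    rwa [Pi.single_eq_of_ne hk, sub_zero] at h
  obtain ⟨ρ', hρ'⟩ : ∃ ρ' : ℝ, ρ' = 2 * (n * lam * ρ) := ⟨_, rfl⟩
  have hρ'0 : 0 < ρ' := by rw [hρ']; positivity
  obtain ⟨T, hT⟩ : ∃ T : ℕ, T = ⌈(n : ℝ) * ρ'⌉₊ := ⟨_, rfl⟩
  have hsmall := mlk_small n D hn hD ρ' hρ'0 ((2 * T + 1) ^ n)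
    (fun i a k => (Li.mulVec (p a)) k - (Li.mulVec (e a)) k / (Li.mulVec (e a)) i * (Li.mulVec (p a)) i)
    (fun i a k => (Li.mulVec (e a)) k / (Li.mulVec (e a)) i) w hw (fun b => Li.mulVec (z b)) M A B
    (fun i => (Li.mulVec q) i - n * lam * S)
    (by
      intro i a ha k hk
      have h1 := hEi i a ha
      have h2 := hEk i a ha k hk
      rw [abs_div, abs_of_pos (by linarith : 0 < (Li.mulVec (e a)) i), div_le_div_iff₀ (by linarith) hD0]
      have h3 : |(Li.mulVec (e a)) k| * D ≤ 1 / 4 := by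
        calc |(Li.mulVec (e a)) k| * D ≤ 1 / (4 * D) * D := mul_le_mul_of_nonneg_right h2 hD0.le
          _ = 1 / 4 := by field_simp
      linarith)
    (by
      intro b hb i
      have h1 : (Li.mulVec (z b)) i - (Li.mulVec q) i = (Li.mulVec (z b - q)) i := by
        rw [Matrix.mulVec_sub]; rfl
      have h2 := abs_le.1 (mlk_mulVec_bound Li lam S hLi (z b - q) (fun l => hS b hb l) i)
      rw [← h1] at h2
      refine ⟨by linarith [h2.1], ?_⟩
      have h3 : n * lam * S < n * lam * (ρ * (D : ℝ) ^ M) := mul_lt_mul_of_pos_left hM (by positivity)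
      rw [hρ']
      nlinarith [h2.2])
    (by
      intro q'
      refine mlk_pack _ z (fun b hb b' hb' hne => hsep b (Finset.mem_filter.1 hb).1 b' (Finset.mem_filter.1 hb').1 hne) T ?_
      intro b hb b' hb' i
      have hb1 := (Finset.mem_filter.1 hb).2
      have hb2 := (Finset.mem_filter.1 hb').2
      have h1 : z b - z b' = U.mulVec (Li.mulVec (z b - z b')) := by
        rw [Matrix.mulVec_mulVec, hUL, Matrix.one_mulVec]
      have h2 : ∀ l, |(Li.mulVec (z b - z b')) l| ≤ ρ' := by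
        intro l
        rw [Matrix.mulVec_sub]
        have e1 := hb1 l
        have e2 := hb2 l
        show |(Li.mulVec (z b)) l - (Li.mulVec (z b')) l| ≤ ρ'
        rw [abs_le]
        constructor <;> linarith [e1.1, e1.2, e2.1, e2.2]
      have h3 := mlk_mulVec_bound U 1 ρ' hUent _ h2 i
      rw [← h1] at h3
      have h4 : (n : ℝ) * ρ' ≤ T := by rw [hT]; exact Nat.le_ceil _
      calc |z b i - z b' i| = |(z b - z b') i| := rfl
        _ ≤ n * 1 * ρ' := h3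
        _ ≤ T := by linarith)
  have hγ : 0 ≤ 1 / ((n : ℝ) - 1) := by
    have : (2 : ℝ) ≤ n := by exact_mod_cast hn
    apply div_nonneg zero_le_one; linarith
  have hP0 : 0 ≤ ∏ i, (∑ a ∈ A i, w a) ^ (1 / ((n : ℝ) - 1)) :=
    Finset.prod_nonneg fun i _ => Real.rpow_nonneg (Finset.sum_nonneg fun a _ => hw a) _
  calc ∑ b ∈ B, ∏ i, (∑ a ∈ A i, if z b ∈ mlkTube (p a) (e a) ρ then w a else 0) ^ (1 / ((n : ℝ) - 1))
      ≤ _ := by
        refine Finset.sum_le_sum fun b _ => Finset.prod_le_prod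
          (fun i _ => Real.rpow_nonneg (Finset.sum_nonneg fun a _ => by split_ifs <;> [exact hw a; exact le_rfl]) _)
          fun i _ => Real.rpow_le_rpow (Finset.sum_nonneg fun a _ => by split_ifs <;> [exact hw a; exact le_rfl])
            (Finset.sum_le_sum fun a ha => ?_) hγ
        by_cases hz : z b ∈ mlkTube (p a) (e a) ρ
        · have h1 := mlk_tube_map Li lam hLi (p a) (e a) (z b) ρ hz
          have h2 := mlk_tube_sh i _ _ _ _ (hEi i a ha)
            (fun k hk => (hEk i a ha k hk).trans (by linarith)) h1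
          rw [← hρ'] at h2
          rw [if_pos hz, if_pos h2]
        · rw [if_neg hz]
          split_ifs <;> [exact hw a; exact le_rfl]
    _ ≤ _ := hsmall
    _ ≤ _ := by
        refine mul_le_mul_of_nonneg_right (mul_le_mul_of_nonneg_right ?_ (by positivity)) hP0
        push_cast
        refine pow_le_pow_left₀ (by positivity) ?_ n
        have h1 : (T : ℝ) ≤ n * ρ' + 1 := by rw [hT]; exact (Nat.ceil_lt_add_one (by positivity)).le
        have h2 : (1 : ℝ) ≤ (n : ℝ) ^ 2 * n.factorial * ρ / θ := by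
          rw [le_div_iff₀ hθ]
          have a1 : (1 : ℝ) ≤ (n : ℝ) ^ 2 := one_le_pow₀ (by exact_mod_cast hn0)
          have a2 : (1 : ℝ) ≤ (n.factorial : ℝ) := by exact_mod_cast n.factorial_pos
          calc 1 * θ ≤ 1 * 1 * 1 := by linarith
            _ ≤ (n : ℝ) ^ 2 * n.factorial * ρ := by gcongr
        have h3 : (n : ℝ) * ρ' = 2 * ((n : ℝ) ^ 2 * n.factorial * ρ / θ) := by
          rw [hρ', hlam]; ring
        have h4 : 7 * (n : ℝ) ^ 2 * n.factorial * ρ / θ = 7 * ((n : ℝ) ^ 2 * n.factorial * ρ / θ) := by ring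
        rw [h4]
        linarith

end Claimed.Agent.R252
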