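import Mathlib

/-!
# Row 252, BOX 2 (unit MLK), file 1: THE ONE-SCALE STEP OF MULTILINEAR KAKEYA            (architect helper206)            CONTRACT
PAPER-FREE.  Guth's short proof (induction on scales from Loomis-Whitney), completely discrete: no integrals, no measure theory outside `mlk_grid`.
* `mlk_grid` : discrete grid-lines lemma on `Fin n → Fin D` (Mathlib: `MeasureTheory.lintegral_prod_lintegral_pow_le` for counting measures);
* `mlk_step` : Loomis-Whitney for `n` weighted families of "almost axis-parallel" subsets of the grid `Fin n → Fin D`, constant `(n 5^n)^2`.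
Every `sorry` is a leaf `L-252-MLK-*` (name in the docstring).  Statements are frozen; auxiliary lemmas go directly above your theorem with prefix `mlk_`; edit only your block.
-/

set_option autoImplicit false
open scoped BigOperators

namespace Claimed.Agent.R252

/-- **LEAF L-252-MLK-GRID.**  `∑_x ∏_i (∑_t f(x with x_i = t))^{1/(n-1)} ≤ (∑_x f x)^{n/(n-1)}`.
PLAN.  `MeasureTheory.lintegral_prod_lintegral_pow_le` with `ι = Fin n`, `A i = Fin D` (`⊤` measurable space, everything is measurable: `measurable_of_finite`/`Measurable.of_discrete`), `μ i = Measure.count`,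
`p = n/(n-1)` (`Real.HolderConjugate`), `f := fun x => ENNReal.ofReal (f x)`.  `lintegral_fintype`/`lintegral_count`, `Measure.pi_singleton`, `Measure.count_singleton`: all integrals are finite sums.
Back to `ℝ`: `ENNReal.ofReal_sum_of_nonneg`, `ENNReal.ofReal_prod_of_nonneg`, `ENNReal.ofReal_rpow_of_nonneg`, `ENNReal.ofReal_le_ofReal_iff`. -/
theorem mlk_grid (n D : ℕ) (hn : 2 ≤ n) (f : (Fin n → Fin D) → ℝ) (hf : ∀ x, 0 ≤ f x) :
    ∑ x, ∏ i, (∑ t, f (Function.update x i t)) ^ (1 / ((n : ℝ) - 1)) ≤ (∑ x, f x) ^ ((n : ℝ) / ((n : ℝ) - 1)) := by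
  have hn1 : (1 : ℝ) < n := by exact_mod_cast hn
  have hp : Real.HolderConjugate (Fintype.card (Fin n) : ℝ) ((n : ℝ) / ((n : ℝ) - 1)) := by
    rw [Fintype.card_fin]
    exact Real.HolderConjugate.conjExponent hn1
  have key := MeasureTheory.lintegral_prod_lintegral_pow_le
    (fun _ : Fin n => (MeasureTheory.Measure.count : MeasureTheory.Measure (Fin D))) hp
    (f := fun x => ENNReal.ofReal (f x)) Measurable.of_discrete
  have hpi : ∀ x : Fin n → Fin D,
      MeasureTheory.Measure.pi (fun _ : Fin n => (MeasureTheory.Measure.count : MeasureTheory.Measure (Fin D))) {x} = 1 := by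
    intro x
    rw [MeasureTheory.Measure.pi_singleton]
    simp
  simp only [MeasureTheory.lintegral_fintype, hpi, mul_one, MeasureTheory.Measure.count_singleton, Fintype.card_fin] at key
  have he : 0 ≤ 1 / ((n : ℝ) - 1) := by
    have : 0 < (n : ℝ) - 1 := by linarith
    positivity
  have he' : 0 ≤ (n : ℝ) / ((n : ℝ) - 1) := by
    have : 0 < (n : ℝ) - 1 := by linarith
    positivity
  have hs : ∀ (x : Fin n → Fin D) (i : Fin n), 0 ≤ ∑ t, f (Function.update x i t) := fun x i => Finset.sum_nonneg fun t _ => hf _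
  have hL : ENNReal.ofReal (∑ x, ∏ i, (∑ t, f (Function.update x i t)) ^ (1 / ((n : ℝ) - 1)))
      = ∑ x, ∏ i, (∑ t, ENNReal.ofReal (f (Function.update x i t))) ^ (1 / ((n : ℝ) - 1)) := by
    rw [ENNReal.ofReal_sum_of_nonneg fun x _ => Finset.prod_nonneg fun i _ => Real.rpow_nonneg (hs x i) _]
    refine Finset.sum_congr rfl fun x _ => ?_
    rw [ENNReal.ofReal_prod_of_nonneg fun i _ => Real.rpow_nonneg (hs x i) _]
    refine Finset.prod_congr rfl fun i _ => ?_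
    rw [← ENNReal.ofReal_rpow_of_nonneg (hs x i) he, ENNReal.ofReal_sum_of_nonneg fun t _ => hf _]
  have hR : ENNReal.ofReal ((∑ x, f x) ^ ((n : ℝ) / ((n : ℝ) - 1))) = (∑ x, ENNReal.ofReal (f x)) ^ ((n : ℝ) / ((n : ℝ) - 1)) := by
    rw [← ENNReal.ofReal_rpow_of_nonneg (Finset.sum_nonneg fun x _ => hf x) he', ENNReal.ofReal_sum_of_nonneg fun x _ => hf x]
  rw [← ENNReal.ofReal_le_ofReal_iff (Real.rpow_nonneg (Finset.sum_nonneg fun x _ => hf x) _), hL, hR]
  exact key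

/-- a window of five consecutive integers contains at most five points of `Fin D` -/
theorem mlk_window_card (D : ℕ) (k : ℤ) :
    (Finset.univ.filter fun t : Fin D => k < ((t : ℕ) : ℤ) ∧ ((t : ℕ) : ℤ) ≤ k + 5).card ≤ 5 := by
  have h : (Finset.univ.filter fun t : Fin D => k < ((t : ℕ) : ℤ) ∧ ((t : ℕ) : ℤ) ≤ k + 5).card ≤ (Finset.Ioc k (k + 5)).card := by
    refine Finset.card_le_card_of_injOn (fun t : Fin D => ((t : ℕ) : ℤ)) ?_ ?_
    · intro t ht
      have := (Finset.mem_filter.1 ht).2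
      exact Finset.mem_coe.2 (Finset.mem_Ioc.2 this)
    · intro t _ t' _ h
      have h' : ((t : ℕ) : ℤ) = ((t' : ℕ) : ℤ) := h
      exact Fin.ext (by exact_mod_cast h')
  have e : (Finset.Ioc k (k + 5)).card = 5 := by
    rw [Int.card_Ioc]
    simp
  omega

/-- the number of points of the grid in a box which is a window of five in all directions but one -/
theorem mlk_box_card (n D : ℕ) (j : Fin n) (κ : Fin n → ℤ) :
    (Finset.univ.filter fun x : Fin n → Fin D => ∀ i, i ≠ j → κ i < ((x i : ℕ) : ℤ) ∧ ((x i : ℕ) : ℤ) ≤ κ i + 5).card ≤ D * 5 ^ n := by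
  classical
  have hsub : (Finset.univ.filter fun x : Fin n → Fin D => ∀ i, i ≠ j → κ i < ((x i : ℕ) : ℤ) ∧ ((x i : ℕ) : ℤ) ≤ κ i + 5)
      ⊆ Fintype.piFinset fun i : Fin n => if i = j then (Finset.univ : Finset (Fin D))
          else Finset.univ.filter fun t : Fin D => κ i < ((t : ℕ) : ℤ) ∧ ((t : ℕ) : ℤ) ≤ κ i + 5 := by
    intro x hx
    rw [Fintype.mem_piFinset]
    intro i
    by_cases hi : i = j
    · rw [if_pos hi]
      exact Finset.mem_univ _
    · rw [if_neg hi]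
      exact Finset.mem_filter.2 ⟨Finset.mem_univ _, (Finset.mem_filter.1 hx).2 i hi⟩
  refine (Finset.card_le_card hsub).trans ?_
  rw [Fintype.card_piFinset]
  calc ∏ i : Fin n, (if i = j then (Finset.univ : Finset (Fin D))
          else Finset.univ.filter fun t : Fin D => κ i < ((t : ℕ) : ℤ) ∧ ((t : ℕ) : ℤ) ≤ κ i + 5).card
      ≤ ∏ i : Fin n, ((if i = j then D else 1) * 5) := by
        refine Finset.prod_le_prod' fun i _ => ?_
        by_cases hi : i = j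
        · rw [if_pos hi, if_pos hi, Finset.card_univ, Fintype.card_fin]
          omega
        · rw [if_neg hi, if_neg hi, one_mul]
          exact mlk_window_card D (κ i)
    _ = D * 5 ^ n := by
        rw [Finset.prod_mul_distrib, Finset.prod_ite_eq' Finset.univ j (fun _ => D), if_pos (Finset.mem_univ j), Finset.prod_const,
          Finset.card_univ, Fintype.card_fin]

theorem mlk_step_pos (n D : ℕ) (hn : 2 ≤ n) (hD : 0 < D) {α : Type*} (A : Fin n → Finset α) (w : α → ℝ) (hw : ∀ a, 0 ≤ w a)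
    (P : Fin n → α → (Fin n → Fin D) → Prop) [∀ j a x, Decidable (P j a x)] (k : Fin n → α → Fin n → ℤ)
    (hP : ∀ j, ∀ a ∈ A j, ∀ x, P j a x → ∀ i, i ≠ j → k j a i < ((x i : ℕ) : ℤ) ∧ ((x i : ℕ) : ℤ) ≤ k j a i + 5)
    (hW : ∀ j, 0 < ∑ a ∈ A j, w a) :
    ∑ x, ∏ j, (∑ a ∈ A j, if P j a x then w a else 0) ^ (1 / ((n : ℝ) - 1))
      ≤ ((n : ℝ) * 5 ^ n) ^ 2 * ∏ j, (∑ a ∈ A j, w a) ^ (1 / ((n : ℝ) - 1)) := by
  classical
  have hn1 : (1 : ℝ) < n := by exact_mod_cast hn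
  have hn0 : 0 < (n : ℝ) - 1 := by linarith
  have hDr : (0 : ℝ) < D := by exact_mod_cast hD
  obtain ⟨e, he⟩ : ∃ e : ℝ, e = 1 / ((n : ℝ) - 1) := ⟨_, rfl⟩
  have he0 : 0 < e := by rw [he]; positivity
  rw [← he]
  obtain ⟨W, hWd⟩ : ∃ W : Fin n → ℝ, W = fun j => ∑ a ∈ A j, w a := ⟨_, rfl⟩
  have hWj : ∀ j, ∑ a ∈ A j, w a = W j := fun j => by rw [hWd]
  have hW0 : ∀ j, 0 < W j := fun j => by rw [← hWj]; exact hW j
  obtain ⟨G, hGd⟩ : ∃ G : Fin n → (Fin n → Fin D) → ℝ, G = fun j x => ∑ a ∈ A j, if P j a x then w a else 0 := ⟨_, rfl⟩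
  have hGj : ∀ j x, (∑ a ∈ A j, if P j a x then w a else 0) = G j x := fun j x => by rw [hGd]
  obtain ⟨g, hgd⟩ : ∃ g : Fin n → (Fin n → Fin D) → ℝ, g = fun j x =>
      ∑ a ∈ A j, if (∀ i, i ≠ j → k j a i < ((x i : ℕ) : ℤ) ∧ ((x i : ℕ) : ℤ) ≤ k j a i + 5) then w a else 0 := ⟨_, rfl⟩
  simp only [hWj, hGj]
  have hG0 : ∀ j x, 0 ≤ G j x := by
    intro j x
    rw [hGd]
    exact Finset.sum_nonneg fun a _ => by split_ifs <;> [exact hw a; exact le_rfl]
  have hg0 : ∀ j x, 0 ≤ g j x := by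
    intro j x
    rw [hgd]
    exact Finset.sum_nonneg fun a _ => by split_ifs <;> [exact hw a; exact le_rfl]
  have hGg : ∀ j x, G j x ≤ g j x := by
    intro j x
    rw [hGd, hgd]
    refine Finset.sum_le_sum fun a ha => ?_
    by_cases h : P j a x
    · rw [if_pos h, if_pos (hP j a ha x h)]
    · rw [if_neg h]
      split_ifs <;> [exact hw a; exact le_rfl]
  have hupd : ∀ i x t, g i (Function.update x i t) = g i x := by
    intro i x t
    rw [hgd]
    refine Finset.sum_congr rfl fun a _ => ?_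
    have : (∀ i', i' ≠ i → k i a i' < ((Function.update x i t i' : ℕ) : ℤ) ∧ ((Function.update x i t i' : ℕ) : ℤ) ≤ k i a i' + 5)
        ↔ (∀ i', i' ≠ i → k i a i' < ((x i' : ℕ) : ℤ) ∧ ((x i' : ℕ) : ℤ) ≤ k i a i' + 5) := by
      refine forall_congr' fun i' => forall_congr' fun hi' => ?_
      rw [Function.update_of_ne hi']
    simp only [this]
  obtain ⟨f, hfd⟩ : ∃ f : (Fin n → Fin D) → ℝ, f = fun x => ∑ j, ((D : ℝ) * W j)⁻¹ * g j x := ⟨_, rfl⟩
  have hc0 : ∀ j, 0 ≤ ((D : ℝ) * W j)⁻¹ := fun j => inv_nonneg.2 (mul_nonneg hDr.le (hW0 j).le)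
  have hf0 : ∀ x, 0 ≤ f x := by
    intro x
    rw [hfd]
    exact Finset.sum_nonneg fun j _ => mul_nonneg (hc0 j) (hg0 j x)
  have h1 : ∀ x i, (W i)⁻¹ * G i x ≤ ∑ t, f (Function.update x i t) := by
    intro x i
    have a1 : ∀ t, ((D : ℝ) * W i)⁻¹ * g i x ≤ f (Function.update x i t) := by
      intro t
      rw [hfd, ← hupd i x t]
      exact Finset.single_le_sum (f := fun j => ((D : ℝ) * W j)⁻¹ * g j (Function.update x i t))
        (fun j _ => mul_nonneg (hc0 j) (hg0 j _)) (Finset.mem_univ i)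
    have a2 : ∑ _t : Fin D, ((D : ℝ) * W i)⁻¹ * g i x ≤ ∑ t, f (Function.update x i t) := Finset.sum_le_sum fun t _ => a1 t
    rw [Finset.sum_const, Finset.card_univ, Fintype.card_fin, nsmul_eq_mul] at a2
    have a3 : (D : ℝ) * (((D : ℝ) * W i)⁻¹ * g i x) = (W i)⁻¹ * g i x := by
      have := (hW0 i).ne'
      field_simp
    rw [a3] at a2
    exact (mul_le_mul_of_nonneg_left (hGg i x) (inv_nonneg.2 (hW0 i).le)).trans a2
  have h2 : ∑ x, f x ≤ (n : ℝ) * 5 ^ n := by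
    rw [hfd, Finset.sum_comm]
    have b1 : ∀ j, ∑ x, ((D : ℝ) * W j)⁻¹ * g j x ≤ 5 ^ n := by
      intro j
      rw [← Finset.mul_sum]
      have b2 : ∑ x, g j x ≤ W j * ((D : ℝ) * 5 ^ n) := by
        rw [hgd, Finset.sum_comm, ← hWj, Finset.sum_mul]
        refine Finset.sum_le_sum fun a _ => ?_
        rw [← Finset.sum_filter, Finset.sum_const, nsmul_eq_mul, mul_comm]
        refine mul_le_mul_of_nonneg_left ?_ (hw a)
        exact_mod_cast mlk_box_card n D j (k j a)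
      calc ((D : ℝ) * W j)⁻¹ * ∑ x, g j x ≤ ((D : ℝ) * W j)⁻¹ * (W j * ((D : ℝ) * 5 ^ n)) := mul_le_mul_of_nonneg_left b2 (hc0 j)
        _ = 5 ^ n := by
          have := (hW0 j).ne'
          field_simp
    calc ∑ j, ∑ x, ((D : ℝ) * W j)⁻¹ * g j x ≤ ∑ _j : Fin n, (5 : ℝ) ^ n := Finset.sum_le_sum fun j _ => b1 j
      _ = (n : ℝ) * 5 ^ n := by rw [Finset.sum_const, Finset.card_univ, Fintype.card_fin, nsmul_eq_mul]
  have h3 := mlk_grid n D hn f hf0
  rw [← he] at h3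
  have hsf : 0 ≤ ∑ x, f x := Finset.sum_nonneg fun x _ => hf0 x
  have h4 : (∑ x, f x) ^ ((n : ℝ) / ((n : ℝ) - 1)) ≤ ((n : ℝ) * 5 ^ n) ^ 2 := by
    have c1 : (1 : ℝ) ≤ (n : ℝ) * 5 ^ n := by
      have : (1 : ℝ) ≤ 5 ^ n := one_le_pow₀ (by norm_num)
      nlinarith
    have c2 : (n : ℝ) / ((n : ℝ) - 1) ≤ 2 := by
      rw [div_le_iff₀ hn0]
      have : (2 : ℝ) ≤ n := by exact_mod_cast hn
      linarith
    calc (∑ x, f x) ^ ((n : ℝ) / ((n : ℝ) - 1)) ≤ ((n : ℝ) * 5 ^ n) ^ ((n : ℝ) / ((n : ℝ) - 1)) :=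
          Real.rpow_le_rpow hsf h2 (by positivity)
      _ ≤ ((n : ℝ) * 5 ^ n) ^ (2 : ℝ) := Real.rpow_le_rpow_of_exponent_le c1 c2
      _ = ((n : ℝ) * 5 ^ n) ^ 2 := by rw [Real.rpow_two]
  have h5 : ∀ x, ∏ j, G j x ^ e = (∏ j, W j ^ e) * ∏ j, ((W j)⁻¹ * G j x) ^ e := by
    intro x
    rw [← Finset.prod_mul_distrib]
    refine Finset.prod_congr rfl fun j _ => ?_
    rw [← Real.mul_rpow (hW0 j).le (mul_nonneg (inv_nonneg.2 (hW0 j).le) (hG0 j x)), mul_inv_cancel_left₀ (hW0 j).ne']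
  have hWe : 0 ≤ ∏ j, W j ^ e := Finset.prod_nonneg fun j _ => Real.rpow_nonneg (hW0 j).le _
  calc ∑ x, ∏ j, G j x ^ e = (∏ j, W j ^ e) * ∑ x, ∏ j, ((W j)⁻¹ * G j x) ^ e := by
        rw [Finset.mul_sum]
        exact Finset.sum_congr rfl fun x _ => h5 x
    _ ≤ (∏ j, W j ^ e) * ∑ x, ∏ i, (∑ t, f (Function.update x i t)) ^ e := by
        refine mul_le_mul_of_nonneg_left (Finset.sum_le_sum fun x _ => ?_) hWe
        refine Finset.prod_le_prod (fun j _ => Real.rpow_nonneg (mul_nonneg (inv_nonneg.2 (hW0 j).le) (hG0 j x)) _) fun j _ => ?_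
        exact Real.rpow_le_rpow (mul_nonneg (inv_nonneg.2 (hW0 j).le) (hG0 j x)) (h1 x j) he0.le
    _ ≤ (∏ j, W j ^ e) * ((n : ℝ) * 5 ^ n) ^ 2 := mul_le_mul_of_nonneg_left (h3.trans h4) hWe
    _ = ((n : ℝ) * 5 ^ n) ^ 2 * ∏ j, W j ^ e := mul_comm _ _

/-- **LEAF L-252-MLK-STEP.**  Family `j` consists of subsets `{x | P j a x}` of the grid which, in every direction `i ≠ j`, live in a window of `5` consecutive values.
PLAN.  `W j = ∑_{a ∈ A j} w a`.  If some `W j = 0` every term of the left side vanishes (`w a = 0` on `A j`; `0 ^ (1/(n-1)) = 0`).  Otherwise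
`Pt j a x :⇔ ∀ i ≠ j, k j a i < x i ≤ k j a i + 5` (does not depend on `x j`), `f x = ∑_j (D W_j)⁻¹ ∑_{a ∈ A j} w a 1[Pt j a x]`.
`∑_t f (update x i t) ≥ (W_i)⁻¹ ∑_{a ∈ A i} w a 1[Pt i a x] ≥ (W_i)⁻¹ ∑_{a ∈ A i} w a 1[P i a x]`;  `#{x | Pt j a x} ≤ D 5^n` (`Fintype.card_piFinset`; the window is the preimage of `Finset.Ioc k (k+5)`),
so `∑_x f x ≤ n 5^n`;  `mlk_grid`;  `t^{n/(n-1)} ≤ t^2` for `t ≥ 1` (if `D = 0` the grid is empty, `n ≥ 2`, and the left side is `0`);  `Real.div_rpow`, `Finset.prod_div_distrib`. -/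
theorem mlk_step (n D : ℕ) (hn : 2 ≤ n) {α : Type*} (A : Fin n → Finset α) (w : α → ℝ) (hw : ∀ a, 0 ≤ w a)
    (P : Fin n → α → (Fin n → Fin D) → Prop) [∀ j a x, Decidable (P j a x)] (k : Fin n → α → Fin n → ℤ)
    (hP : ∀ j, ∀ a ∈ A j, ∀ x, P j a x → ∀ i, i ≠ j → k j a i < ((x i : ℕ) : ℤ) ∧ ((x i : ℕ) : ℤ) ≤ k j a i + 5) :
    ∑ x, ∏ j, (∑ a ∈ A j, if P j a x then w a else 0) ^ (1 / ((n : ℝ) - 1))
      ≤ ((n : ℝ) * 5 ^ n) ^ 2 * ∏ j, (∑ a ∈ A j, w a) ^ (1 / ((n : ℝ) - 1)) := by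
  have hn1 : (1 : ℝ) < n := by exact_mod_cast hn
  have hn0 : 0 < (n : ℝ) - 1 := by linarith
  have he0 : 0 < 1 / ((n : ℝ) - 1) := by positivity
  have hR : 0 ≤ ((n : ℝ) * 5 ^ n) ^ 2 * ∏ j, (∑ a ∈ A j, w a) ^ (1 / ((n : ℝ) - 1)) :=
    mul_nonneg (by positivity) (Finset.prod_nonneg fun j _ => Real.rpow_nonneg (Finset.sum_nonneg fun a _ => hw a) _)
  by_cases hD : D = 0
  · subst hD
    have : IsEmpty (Fin n → Fin 0) := ⟨fun x => (x ⟨0, by omega⟩).elim0⟩
    rw [Finset.univ_eq_empty, Finset.sum_empty]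
    exact hR
  by_cases hW : ∀ j, 0 < ∑ a ∈ A j, w a
  · exact mlk_step_pos n D hn (Nat.pos_of_ne_zero hD) A w hw P k hP hW
  · obtain ⟨j, hj'⟩ := not_forall.1 hW
    have hj := not_lt.1 hj'
    have hj0 : ∑ a ∈ A j, w a = 0 := le_antisymm hj (Finset.sum_nonneg fun a _ => hw a)
    have hwa : ∀ a ∈ A j, w a = 0 := (Finset.sum_eq_zero_iff_of_nonneg fun a _ => hw a).1 hj0
    have hz : ∀ x, ∏ j, (∑ a ∈ A j, if P j a x then w a else 0) ^ (1 / ((n : ℝ) - 1)) = 0 := by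
      intro x
      refine Finset.prod_eq_zero (Finset.mem_univ j) ?_
      have : (∑ a ∈ A j, if P j a x then w a else 0) = 0 :=
        Finset.sum_eq_zero fun a ha => by rw [hwa a ha, ite_self]
      rw [this, Real.zero_rpow he0.ne']
    rw [Finset.sum_eq_zero fun x _ => hz x]
    exact hR

end Claimed.Agent.R252
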