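import Claimed.Agent.R252.Mlk.Cap

/-!
# Row 252, BOX 2 (unit MLK), file 4: MULTILINEAR KAKEYA WITH A DETERMINANT THRESHOLD            (architect helper206)            CONTRACT
Replaces (a05:determinant-kakeya) of 06-isotropic.tex (Carbery-Valdimarsson) in its three uses (06 l.400, l.625, l.1325), with the allowed losses `S^ε` and `θ^{-C}`.
PAPER-FREE, FINITE.   Lines `p a + ℝ e a` in `Fin n → ℝ` with `|e a|_∞ ≤ 1`, weights `w a ≥ 0`, families `A i` (`i : Fin n`; in the three uses all families are equal);  cells are represented by points `z b` (centres), which are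
`1`-separated in the sup norm and have diameter `≤ S`;   `mlkCount A p e w ρ θ z` = total product weight of the tuples `(a_1, .., a_n) ∈ ∏ A i` with `|det (e a_1, .., e a_n)| ≥ θ` all of whose `ρ`-tubes contain `z`.
* **`mlk_main`**   : `∑_b (mlkCount .. (z b))^{1/(n-1)} ≤ C_{n,ε} (ρ/θ)^{n²+n} S^ε ∏_i (∑_{A i} w)^{1/(n-1)}`;
* **`mlk_scaled`** : the same at scale `r` (points `r`-separated, diameter `≤ S r`, tubes of radius `ρ r`);
* **`mlk_cells`**  : the form in which the paper uses it (power mean): if `m_b^n ≤ K mlkCount (z b)` then `(∑ m_b)^n ≤ #B · K (C (ρ/θ)^{n²+n} S^ε)^{n-1} (∑ w)^n`, i.e. MANY CELLS ARE OCCUPIED.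
Every `sorry` is a leaf `L-252-MLK-*`.  Statements are frozen; auxiliary lemmas directly above your theorem, prefix `mlk_`; edit only your block.
-/

set_option autoImplicit false
open scoped BigOperators

namespace Claimed.Agent.R252

open Classical in
/-- total product weight of the `θ`-transversal tuples of `ρ`-tubes through `z` -/
noncomputable def mlkCount {n : ℕ} {α : Type*} (A : Fin n → Finset α) (p e : α → Fin n → ℝ) (w : α → ℝ) (ρ θ : ℝ)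
    (z : Fin n → ℝ) : ℝ :=
  ∑ a ∈ Fintype.piFinset A,
    if θ ≤ |Matrix.det (Matrix.of fun i => e (a i))| ∧ ∀ i, z ∈ mlkTube (p (a i)) (e (a i)) ρ then ∏ i, w (a i) else 0

theorem mlkCount_nonneg {n : ℕ} {α : Type*} (A : Fin n → Finset α) (p e : α → Fin n → ℝ) (w : α → ℝ) (hw : ∀ a, 0 ≤ w a)
    (ρ θ : ℝ) (z : Fin n → ℝ) : 0 ≤ mlkCount A p e w ρ θ z := by
  unfold mlkCount
  refine Finset.sum_nonneg fun a _ => ?_
  split_ifs
  · exact Finset.prod_nonneg fun i _ => hw _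
  · exact le_rfl

/-- **LEAF L-252-MLK-SUB.**  Induction on `s` (`Finset.induction_on`), `Real.rpow_add_le_add_rpow` (or `NNReal.rpow_add_le_add_rpow`). -/
theorem mlk_rpow_sum_le {κ : Type*} (s : Finset κ) (X : κ → ℝ) (hX : ∀ k ∈ s, 0 ≤ X k) (γ : ℝ) (h0 : 0 < γ) (h1 : γ ≤ 1) :
    (∑ k ∈ s, X k) ^ γ ≤ ∑ k ∈ s, X k ^ γ := by
  classical
  induction s using Finset.induction_on with
  | empty => simp [Real.zero_rpow h0.ne']
  | insert a s ha ih =>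
    rw [Finset.sum_insert ha, Finset.sum_insert ha]
    have h2 : 0 ≤ X a := hX a (Finset.mem_insert_self a s)
    have h3 : 0 ≤ ∑ k ∈ s, X k := Finset.sum_nonneg fun k hk => hX k (Finset.mem_insert_of_mem hk)
    exact (Real.rpow_add_le_add_rpow h2 h3 h0.le h1).trans
      (add_le_add_right (ih fun k hk => hX k (Finset.mem_insert_of_mem hk)) _)

open Classical in
/-- **LEAF L-252-MLK-CLASS: the tuples whose directions lie in a given tuple of caps.**   `η > 0`, cap of `e` = `fun l => ⌊e l / η⌋`.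
PLAN.  Drop the determinant condition, `(∀ i, z ∈ T (a i)) → ∏ w = ∏ (if .. then w else 0)`; `Finset.prod_univ_sum` (`∏_i ∑_{a ∈ t i} f i a = ∑_{a ∈ piFinset t} ∏_i f i (a i)`) with `t i = (A i).filter ..`;
`(piFinset A).filter (∀ i l, ..) = piFinset (fun i => (A i).filter ..)` (`ext; simp [Fintype.mem_piFinset, forall_and]`). -/
theorem mlk_class_le {n : ℕ} {α : Type*} (A : Fin n → Finset α) (p e : α → Fin n → ℝ) (w : α → ℝ) (hw : ∀ a, 0 ≤ w a)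
    (ρ θ η : ℝ) (z : Fin n → ℝ) (k : Fin n → Fin n → ℤ) :
    (∑ a ∈ (Fintype.piFinset A).filter (fun a => ∀ i l, ⌊e (a i) l / η⌋ = k i l),
      if θ ≤ |Matrix.det (Matrix.of fun i => e (a i))| ∧ ∀ i, z ∈ mlkTube (p (a i)) (e (a i)) ρ then ∏ i, w (a i) else 0)
      ≤ ∏ i, ∑ a ∈ (A i).filter (fun a => ∀ l, ⌊e a l / η⌋ = k i l), if z ∈ mlkTube (p a) (e a) ρ then w a else 0 := by
  rw [Finset.prod_univ_sum]
  have hs : (Fintype.piFinset A).filter (fun a => ∀ i l, ⌊e (a i) l / η⌋ = k i l)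
      = Fintype.piFinset fun i => (A i).filter (fun a => ∀ l, ⌊e a l / η⌋ = k i l) := by
    ext a
    simp only [Finset.mem_filter, Fintype.mem_piFinset, forall_and]
  rw [hs]
  refine Finset.sum_le_sum fun a _ => ?_
  split_ifs with h
  · refine le_of_eq (Finset.prod_congr rfl fun i _ => ?_)
    rw [if_pos (h.2 i)]
  · refine Finset.prod_nonneg fun i _ => ?_
    split_ifs
    · exact hw _
    · exact le_rfl

/-- **LEAF L-252-MLK-CAPS: decomposition into tuples of caps** (explicit `D`, `M`).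
PLAN.  `η = θ/(4 n n! D) ≤ 1`, `N = ⌈1/η⌉₊`, `𝒦 = piFinset fun _ => piFinset fun _ => Finset.Icc (-N : ℤ) N`, `#𝒦 = (2N+1)^{n²} ≤ (5/η)^{n²} = (20 n n! D/θ)^{n²}`.   `a ↦ (fun i l => ⌊e (a i) l / η⌋)` maps `piFinset A` into `𝒦` (`|e| ≤ 1`);
`Finset.sum_fiberwise_of_maps_to`: `mlkCount (z) = ∑_{k ∈ 𝒦} X_k(z)`, `X_k` = left side of `mlk_class_le`;  `mlk_rpow_sum_le` (`γ = 1/(n-1) ∈ (0,1]`), `Finset.sum_comm`.   Fix `k`.   If no tuple of the class has `θ ≤ |det|` then `X_k ≡ 0`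
(`Real.zero_rpow`).   Otherwise let `a⁰` be one, `u i = e (a⁰ i)`;  equal floors give `|e a l - u i l| ≤ η`;  `mlk_class_le`, `Real.finset_prod_rpow`, `mlk_cap` for the families `(A i).filter ..`;  `∑_{filter} w ≤ ∑_{A i} w`. -/
theorem mlk_caps (n D : ℕ) (hn : 2 ≤ n) (hD : 1 ≤ D) (ρ S θ : ℝ) (hρ : 1 ≤ ρ) (hθ : 0 < θ) (hθ1 : θ ≤ 1) (M : ℕ)
    (hM : S < ρ * (D : ℝ) ^ M) {α β : Type*} (A : Fin n → Finset α) (p e : α → Fin n → ℝ) (w : α → ℝ) (hw : ∀ a, 0 ≤ w a)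
    (he : ∀ i, ∀ a ∈ A i, ∀ k, |e a k| ≤ 1)
    (B : Finset β) (z : β → Fin n → ℝ) (hsep : ∀ b ∈ B, ∀ b' ∈ B, b ≠ b' → ∃ i, 1 ≤ |z b i - z b' i|)
    (q : Fin n → ℝ) (hS : ∀ b ∈ B, ∀ i, |z b i - q i| ≤ S) :
    ∑ b ∈ B, (mlkCount A p e w ρ θ (z b)) ^ (1 / ((n : ℝ) - 1))
      ≤ (20 * (n : ℝ) * n.factorial * D / θ) ^ (n ^ 2) * ((7 * (n : ℝ) ^ 2 * n.factorial * ρ / θ) ^ n
        * (((n : ℝ) * 5 ^ n) ^ 2) ^ M * ∏ i, (∑ a ∈ A i, w a) ^ (1 / ((n : ℝ) - 1))) := by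
  classical
  have hn2 : (2 : ℝ) ≤ n := by exact_mod_cast hn
  have hn1 : (0 : ℝ) < (n : ℝ) - 1 := by linarith
  obtain ⟨γ, hγ⟩ : ∃ γ : ℝ, γ = 1 / ((n : ℝ) - 1) := ⟨_, rfl⟩
  have hγ0 : 0 < γ := by rw [hγ]; positivity
  have hγ1 : γ ≤ 1 := by
    rw [hγ, div_le_one hn1]
    linarith
  rw [← hγ]
  obtain ⟨η, hη⟩ : ∃ η : ℝ, η = θ / (4 * n * n.factorial * D) := ⟨_, rfl⟩
  have hfac : (1 : ℝ) ≤ n.factorial := by exact_mod_cast Nat.succ_le_of_lt n.factorial_pos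
  have hDr : (1 : ℝ) ≤ D := by exact_mod_cast hD
  have hden : (1 : ℝ) ≤ 4 * n * n.factorial * D := by
    have h1 : (1 : ℝ) ≤ 4 * n := by linarith
    have h2 : (1 : ℝ) ≤ 4 * n * n.factorial := one_le_mul_of_one_le_of_one_le h1 hfac
    exact one_le_mul_of_one_le_of_one_le h2 hDr
  have hη0 : 0 < η := by rw [hη]; positivity
  have hη1 : η ≤ 1 := by
    rw [hη, div_le_one (by linarith)]
    linarith
  obtain ⟨N, hN⟩ : ∃ N : ℕ, N = ⌈1 / η⌉₊ := ⟨_, rfl⟩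
  have hN1 : 1 / η ≤ N := by rw [hN]; exact Nat.le_ceil _
  have hN2 : (N : ℝ) < 1 / η + 1 := by rw [hN]; exact Nat.ceil_lt_add_one (by positivity)
  obtain ⟨KK, hKK⟩ : ∃ KK : Finset (Fin n → Fin n → ℤ),
      KK = Fintype.piFinset fun _ : Fin n => Fintype.piFinset fun _ : Fin n => Finset.Icc (-(N : ℤ)) N := ⟨_, rfl⟩
  obtain ⟨R, hR⟩ : ∃ R : ℝ, R = (7 * (n : ℝ) ^ 2 * n.factorial * ρ / θ) ^ n
        * (((n : ℝ) * 5 ^ n) ^ 2) ^ M * ∏ i, (∑ a ∈ A i, w a) ^ γ := ⟨_, rfl⟩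
  rw [← hR]
  have hsum0 : ∀ i, 0 ≤ ∑ a ∈ A i, w a := fun i => Finset.sum_nonneg fun a _ => hw a
  have hR0 : 0 ≤ R := by
    rw [hR]
    have h1 : 0 ≤ ∏ i, (∑ a ∈ A i, w a) ^ γ := Finset.prod_nonneg fun i _ => Real.rpow_nonneg (hsum0 i) _
    have h2 : 0 ≤ 7 * (n : ℝ) ^ 2 * n.factorial * ρ / θ := by positivity
    positivity
  -- the classes
  obtain ⟨X, hX⟩ : ∃ X : (Fin n → Fin n → ℤ) → (Fin n → ℝ) → ℝ, X = fun k y =>
      ∑ a ∈ (Fintype.piFinset A).filter (fun a => ∀ i l, ⌊e (a i) l / η⌋ = k i l),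
        if θ ≤ |Matrix.det (Matrix.of fun i => e (a i))| ∧ ∀ i, y ∈ mlkTube (p (a i)) (e (a i)) ρ then ∏ i, w (a i) else 0 := ⟨_, rfl⟩
  have hX0 : ∀ k y, 0 ≤ X k y := by
    intro k y
    rw [hX]
    refine Finset.sum_nonneg fun a _ => ?_
    split_ifs
    · exact Finset.prod_nonneg fun i _ => hw _
    · exact le_rfl
  have hmaps : ∀ a ∈ Fintype.piFinset A, (fun i l => ⌊e (a i) l / η⌋) ∈ KK := by
    intro a ha
    rw [hKK, Fintype.mem_piFinset]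
    intro i
    rw [Fintype.mem_piFinset]
    intro l
    have h1 := he i (a i) (Fintype.mem_piFinset.1 ha i) l
    obtain ⟨h2, h3⟩ := abs_le.1 h1
    rw [Finset.mem_Icc]
    constructor
    · rw [Int.le_floor]
      push_cast
      have : -(1 / η) ≤ e (a i) l / η := by
        rw [← neg_div]
        exact div_le_div_of_nonneg_right h2 hη0.le
      linarith
    · have h4 : e (a i) l / η ≤ 1 / η := div_le_div_of_nonneg_right h3 hη0.le
      have h5 : ((⌊e (a i) l / η⌋ : ℤ) : ℝ) ≤ ((N : ℤ) : ℝ) := by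
        push_cast
        exact (Int.floor_le _).trans (h4.trans hN1)
      exact_mod_cast h5
  have hdecomp : ∀ y, mlkCount A p e w ρ θ y = ∑ k ∈ KK, X k y := by
    intro y
    unfold mlkCount
    rw [← Finset.sum_fiberwise_of_maps_to hmaps, hX]
    refine Finset.sum_congr rfl fun k _ => ?_
    refine Finset.sum_congr ?_ fun _ _ => rfl
    refine Finset.filter_congr fun a _ => ?_
    constructor
    · intro h i l
      exact congrFun (congrFun h i) l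
    · intro h
      funext i l
      exact h i l
  -- one class
  have hclass : ∀ k, ∑ b ∈ B, X k (z b) ^ γ ≤ R := by
    intro k
    by_cases hex : ∃ a ∈ (Fintype.piFinset A).filter (fun a => ∀ i l, ⌊e (a i) l / η⌋ = k i l),
        θ ≤ |Matrix.det (Matrix.of fun i => e (a i))|
    · obtain ⟨a0, ha0, hdet⟩ := hex
      obtain ⟨ha0A, ha0k⟩ := Finset.mem_filter.1 ha0
      have hu : ∀ i l, |e (a0 i) l| ≤ 1 := fun i l => he i (a0 i) (Fintype.mem_piFinset.1 ha0A i) l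
      have hcap : ∀ i, ∀ a ∈ (A i).filter (fun a => ∀ l, ⌊e a l / η⌋ = k i l), ∀ l,
          |e a l - e (a0 i) l| ≤ θ / (4 * n * n.factorial * D) := by
        intro i a ha l
        rw [← hη]
        have h1 : ⌊e a l / η⌋ = ⌊e (a0 i) l / η⌋ := by
          rw [(Finset.mem_filter.1 ha).2 l, ha0k i l]
        have h2 := Int.abs_sub_lt_one_of_floor_eq_floor h1
        rw [← sub_div, abs_div, abs_of_pos hη0, div_lt_one hη0] at h2
        exact h2.le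
      have key := mlk_cap n D hn hD ρ S θ hρ hθ hθ1 M hM (fun i => (A i).filter (fun a => ∀ l, ⌊e a l / η⌋ = k i l)) p e w hw
        (fun i => e (a0 i)) hu hdet hcap B z hsep q hS
      rw [← hγ] at key
      have h1 : ∀ b ∈ B, X k (z b) ^ γ
          ≤ ∏ i, (∑ a ∈ (A i).filter (fun a => ∀ l, ⌊e a l / η⌋ = k i l), if z b ∈ mlkTube (p a) (e a) ρ then w a else 0) ^ γ := by
        intro b _
        rw [Real.finsetProd_rpow _ _ (fun i _ => Finset.sum_nonneg fun a _ => by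
          split_ifs
          · exact hw a
          · exact le_rfl)]
        refine Real.rpow_le_rpow (hX0 k _) ?_ hγ0.le
        rw [hX]
        exact mlk_class_le A p e w hw ρ θ η (z b) k
      refine (Finset.sum_le_sum h1).trans (key.trans ?_)
      rw [hR]
      refine mul_le_mul_of_nonneg_left ?_ (by
        have h2 : 0 ≤ 7 * (n : ℝ) ^ 2 * n.factorial * ρ / θ := by positivity
        positivity)
      refine Finset.prod_le_prod (fun i _ => Real.rpow_nonneg (Finset.sum_nonneg fun a _ => hw a) _) fun i _ => ?_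
      refine Real.rpow_le_rpow (Finset.sum_nonneg fun a _ => hw a) ?_ hγ0.le
      exact Finset.sum_le_sum_of_subset_of_nonneg (Finset.filter_subset _ _) fun a _ _ => hw a
    · have h0 : ∀ y, X k y = 0 := by
        intro y
        rw [hX]
        refine Finset.sum_eq_zero fun a ha => ?_
        rw [if_neg]
        intro h
        exact hex ⟨a, ha, h.1⟩
      have h1 : ∑ b ∈ B, X k (z b) ^ γ = 0 := by
        refine Finset.sum_eq_zero fun b _ => ?_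
        rw [h0, Real.zero_rpow hγ0.ne']
      rw [h1]
      exact hR0
  -- the number of classes
  have hcard : (KK.card : ℝ) ≤ (20 * (n : ℝ) * n.factorial * D / θ) ^ (n ^ 2) := by
    have c1 : KK.card = (2 * N + 1) ^ (n ^ 2) := by
      rw [hKK, Fintype.card_piFinset_const, Fintype.card_piFinset_const, Int.card_Icc, ← pow_mul, sq]
      congr 1
      omega
    rw [c1]
    push_cast
    refine pow_le_pow_left₀ (by positivity) ?_ _
    have c2 : 20 * (n : ℝ) * n.factorial * D / θ = 5 * (1 / η) := by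
      rw [hη]
      field_simp
      ring
    rw [c2]
    have c3 : 1 ≤ 1 / η := by
      rw [le_div_iff₀ hη0]
      linarith
    linarith
  calc ∑ b ∈ B, (mlkCount A p e w ρ θ (z b)) ^ γ
      = ∑ b ∈ B, (∑ k ∈ KK, X k (z b)) ^ γ := Finset.sum_congr rfl fun b _ => by rw [hdecomp]
    _ ≤ ∑ b ∈ B, ∑ k ∈ KK, X k (z b) ^ γ :=
        Finset.sum_le_sum fun b _ => mlk_rpow_sum_le KK (fun k => X k (z b)) (fun k _ => hX0 k _) γ hγ0 hγ1
    _ = ∑ k ∈ KK, ∑ b ∈ B, X k (z b) ^ γ := Finset.sum_comm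
    _ ≤ ∑ _k ∈ KK, R := Finset.sum_le_sum fun k _ => hclass k
    _ = (KK.card : ℝ) * R := by rw [Finset.sum_const, nsmul_eq_mul]
    _ ≤ (20 * (n : ℝ) * n.factorial * D / θ) ^ (n ^ 2) * R := mul_le_mul_of_nonneg_right hcard hR0

/-- **LEAF L-252-MLK-MAIN: MULTILINEAR KAKEYA, `ε`-loss, polynomial in the transversality.**
PLAN.  `Cs = (n 5^n)^2 > 1`, `D = ⌈Cs^{1/ε}⌉₊ ≥ 2`, `Cs ≤ D^ε`.   `exists_nat_pow_near` for `x = S/ρ ≥ 1`, `y = D`: `D^{M₀} ≤ S/ρ < D^{M₀+1}`, `M = M₀ + 1`.   `Cs^M ≤ (D^M)^ε ≤ (D S/ρ)^ε ≤ D^ε S^ε`.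
`C = (20 n n! D)^{n²} (7 n² n!)^n D^ε`;  `(1/θ)^{n²} (ρ/θ)^n ≤ (ρ/θ)^{n²+n}`.   `B = ∅` trivial, else `q = z b₀`.   `mlk_caps`. -/
theorem mlk_main.{u, v} (n : ℕ) (hn : 2 ≤ n) (ε : ℝ) (hε : 0 < ε) : ∃ C : ℝ, 0 < C ∧ ∀ (ρ S θ : ℝ), 1 ≤ ρ → ρ ≤ S → 0 < θ → θ ≤ 1 →
    ∀ (α : Type u) (β : Type v) (A : Fin n → Finset α) (p e : α → Fin n → ℝ) (w : α → ℝ), (∀ a, 0 ≤ w a) →
    (∀ i, ∀ a ∈ A i, ∀ k, |e a k| ≤ 1) → ∀ (B : Finset β) (z : β → Fin n → ℝ),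
    (∀ b ∈ B, ∀ b' ∈ B, b ≠ b' → ∃ i, 1 ≤ |z b i - z b' i|) → (∀ b ∈ B, ∀ b' ∈ B, ∀ i, |z b i - z b' i| ≤ S) →
    ∑ b ∈ B, (mlkCount A p e w ρ θ (z b)) ^ (1 / ((n : ℝ) - 1))
      ≤ C * (ρ / θ) ^ (n ^ 2 + n) * S ^ ε * ∏ i, (∑ a ∈ A i, w a) ^ (1 / ((n : ℝ) - 1)) := by
  obtain ⟨Cs, hCs⟩ : ∃ Cs : ℝ, Cs = ((n : ℝ) * 5 ^ n) ^ 2 := ⟨_, rfl⟩
  have hn1 : (1 : ℝ) ≤ n := by exact_mod_cast (by omega : 1 ≤ n)
  have h5 : (1 : ℝ) < 5 ^ n := one_lt_pow₀ (by norm_num) (by omega)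
  have hCs1 : 1 < Cs := by
    rw [hCs]
    have : (1 : ℝ) < (n : ℝ) * 5 ^ n := by nlinarith
    exact one_lt_pow₀ this (by norm_num)
  have hCs0 : 0 < Cs := by linarith
  obtain ⟨D, hD⟩ : ∃ D : ℕ, D = ⌈Cs ^ (1 / ε)⌉₊ := ⟨_, rfl⟩
  have hDle : Cs ^ (1 / ε) ≤ (D : ℝ) := by rw [hD]; exact Nat.le_ceil _
  have hpow1 : 1 < Cs ^ (1 / ε) := Real.one_lt_rpow hCs1 (by positivity)
  have hD1 : (1 : ℝ) < D := lt_of_lt_of_le hpow1 hDle
  have hD0 : (0 : ℝ) < D := by linarith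
  have hD1' : 1 ≤ D := by
    have : (0 : ℝ) < D := hD0
    exact_mod_cast this
  have hCsD : Cs ≤ (D : ℝ) ^ ε := by
    have h1 : (Cs ^ (1 / ε)) ^ ε ≤ (D : ℝ) ^ ε := Real.rpow_le_rpow (by positivity) hDle hε.le
    rwa [← Real.rpow_mul hCs0.le, one_div, inv_mul_cancel₀ hε.ne', Real.rpow_one] at h1
  have hf0 : (0 : ℝ) < n.factorial := by exact_mod_cast n.factorial_pos
  have hn0 : (0 : ℝ) < n := by linarith
  refine ⟨(20 * (n : ℝ) * n.factorial * D) ^ (n ^ 2) * (7 * (n : ℝ) ^ 2 * n.factorial) ^ n * (D : ℝ) ^ ε, by positivity,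
    fun ρ S θ hρ hρS hθ hθ1 α β A p e w hw he B z hsep hdiam => ?_⟩
  have hρ0 : 0 < ρ := by linarith
  have hS0 : 0 < S := by linarith
  have hP0 : 0 ≤ ∏ i, (∑ a ∈ A i, w a) ^ (1 / ((n : ℝ) - 1)) :=
    Finset.prod_nonneg fun i _ => Real.rpow_nonneg (Finset.sum_nonneg fun a _ => hw a) _
  rcases B.eq_empty_or_nonempty with rfl | ⟨b₀, hb₀⟩
  · simp only [Finset.sum_empty]
    positivity
  obtain ⟨M₀, hM1, hM2⟩ := exists_nat_pow_near (x := S / ρ) (y := (D : ℝ)) ((one_le_div hρ0).2 hρS) hD1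
  have hM : S < ρ * (D : ℝ) ^ (M₀ + 1) := by
    rw [div_lt_iff₀ hρ0] at hM2
    linarith
  have key := mlk_caps n D hn hD1' ρ S θ hρ hθ hθ1 (M₀ + 1) hM A p e w hw he B z hsep (z b₀)
    (fun b hb i => hdiam b hb b₀ hb₀ i)
  refine key.trans ?_
  rw [← hCs]
  have e1 : Cs ^ (M₀ + 1) ≤ (D : ℝ) ^ ε * S ^ ε := by
    have a1 : Cs ^ (M₀ + 1) ≤ ((D : ℝ) ^ ε) ^ (M₀ + 1) := pow_le_pow_left₀ hCs0.le hCsD _
    have a2 : ((D : ℝ) ^ ε) ^ (M₀ + 1) = ((D : ℝ) ^ (M₀ + 1)) ^ ε := by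
      rw [← Real.rpow_natCast, ← Real.rpow_mul hD0.le, ← Real.rpow_natCast, ← Real.rpow_mul hD0.le, mul_comm]
    have a3 : (D : ℝ) ^ (M₀ + 1) ≤ D * S := by
      rw [pow_succ, mul_comm]
      refine mul_le_mul_of_nonneg_left (hM1.trans ?_) hD0.le
      exact div_le_self hS0.le hρ
    have a4 : ((D : ℝ) ^ (M₀ + 1)) ^ ε ≤ (D * S) ^ ε := Real.rpow_le_rpow (by positivity) a3 hε.le
    rw [Real.mul_rpow hD0.le hS0.le] at a4
    rw [a2] at a1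
    exact a1.trans a4
  have e2 : (20 * (n : ℝ) * n.factorial * D / θ) ^ (n ^ 2)
      ≤ (20 * (n : ℝ) * n.factorial * D) ^ (n ^ 2) * (ρ / θ) ^ (n ^ 2) := by
    rw [← mul_pow]
    refine pow_le_pow_left₀ (by positivity) ?_ _
    rw [div_eq_mul_inv, div_eq_mul_inv]
    refine mul_le_mul_of_nonneg_left ?_ (by positivity)
    exact le_mul_of_one_le_left (by positivity) hρ
  have e3 : (7 * (n : ℝ) ^ 2 * n.factorial * ρ / θ) ^ n = (7 * (n : ℝ) ^ 2 * n.factorial) ^ n * (ρ / θ) ^ n := by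
    rw [← mul_pow]
    congr 1
    ring
  rw [e3]
  have hq0 : 0 < ρ / θ := by positivity
  calc (20 * (n : ℝ) * n.factorial * D / θ) ^ (n ^ 2) * ((7 * (n : ℝ) ^ 2 * n.factorial) ^ n * (ρ / θ) ^ n
        * Cs ^ (M₀ + 1) * ∏ i, (∑ a ∈ A i, w a) ^ (1 / ((n : ℝ) - 1)))
      ≤ ((20 * (n : ℝ) * n.factorial * D) ^ (n ^ 2) * (ρ / θ) ^ (n ^ 2)) * ((7 * (n : ℝ) ^ 2 * n.factorial) ^ n * (ρ / θ) ^ n
        * ((D : ℝ) ^ ε * S ^ ε) * ∏ i, (∑ a ∈ A i, w a) ^ (1 / ((n : ℝ) - 1))) := by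
        refine mul_le_mul e2 ?_ (by positivity) (by positivity)
        refine mul_le_mul_of_nonneg_right ?_ hP0
        exact mul_le_mul_of_nonneg_left e1 (by positivity)
    _ = _ := by
        rw [pow_add]
        ring

theorem mlk_tube_scale {n : ℕ} (p e : Fin n → ℝ) (ρ r : ℝ) (hr : 0 < r) (z : Fin n → ℝ) :
    z ∈ mlkTube p e (ρ * r) ↔ (fun i => z i / r) ∈ mlkTube (fun i => p i / r) e ρ := by
  unfold mlkTube
  simp only [Set.mem_ofPred_eq]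
  constructor
  · rintro ⟨t, ht⟩
    refine ⟨t / r, fun i => ?_⟩
    have : z i / r - p i / r - t / r * e i = (z i - p i - t * e i) / r := by ring
    rw [this, abs_div, abs_of_pos hr, div_le_iff₀ hr]
    exact ht i
  · rintro ⟨t, ht⟩
    refine ⟨t * r, fun i => ?_⟩
    have h1 := ht i
    have : z i / r - p i / r - t * e i = (z i - p i - t * r * e i) / r := by
      field_simp
    rw [this, abs_div, abs_of_pos hr, div_le_iff₀ hr] at h1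
    exact h1

/-- **LEAF L-252-MLK-SCALE (1).**  `z ∈ mlkTube p e (ρ r) ↔ r⁻¹ z ∈ mlkTube (r⁻¹ p) e ρ` (parameter `t/r`). -/
theorem mlkCount_scale {n : ℕ} {α : Type*} (A : Fin n → Finset α) (p e : α → Fin n → ℝ) (w : α → ℝ) (ρ θ r : ℝ) (hr : 0 < r)
    (z : Fin n → ℝ) :
    mlkCount A p e w (ρ * r) θ z = mlkCount A (fun a i => p a i / r) e w ρ θ (fun i => z i / r) := by
  classical
  unfold mlkCount
  refine Finset.sum_congr rfl fun a _ => ?_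
  refine if_congr ?_ rfl rfl
  refine and_congr Iff.rfl (forall_congr' fun i => ?_)
  exact mlk_tube_scale _ _ _ _ hr _

/-- **LEAF L-252-MLK-SCALE (2): the same at scale `r`.**  `mlk_main` (same `C`) for `p/r`, `z/r`; `mlkCount_scale`. -/
theorem mlk_scaled.{u, v} (n : ℕ) (hn : 2 ≤ n) (ε : ℝ) (hε : 0 < ε) : ∃ C : ℝ, 0 < C ∧ ∀ (r ρ S θ : ℝ), 0 < r → 1 ≤ ρ → ρ ≤ S → 0 < θ → θ ≤ 1 →
    ∀ (α : Type u) (β : Type v) (A : Fin n → Finset α) (p e : α → Fin n → ℝ) (w : α → ℝ), (∀ a, 0 ≤ w a) →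
    (∀ i, ∀ a ∈ A i, ∀ k, |e a k| ≤ 1) → ∀ (B : Finset β) (z : β → Fin n → ℝ),
    (∀ b ∈ B, ∀ b' ∈ B, b ≠ b' → ∃ i, r ≤ |z b i - z b' i|) → (∀ b ∈ B, ∀ b' ∈ B, ∀ i, |z b i - z b' i| ≤ S * r) →
    ∑ b ∈ B, (mlkCount A p e w (ρ * r) θ (z b)) ^ (1 / ((n : ℝ) - 1))
      ≤ C * (ρ / θ) ^ (n ^ 2 + n) * S ^ ε * ∏ i, (∑ a ∈ A i, w a) ^ (1 / ((n : ℝ) - 1)) := by
  obtain ⟨C, hC, h⟩ := mlk_main.{u, v} n hn ε hε
  refine ⟨C, hC, ?_⟩
  intro r ρ S θ hr hρ hS hθ hθ1 α β A p e w hw he B z hsep hdiam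
  have e1 : ∀ b b' i, z b i / r - z b' i / r = (z b i - z b' i) / r := fun b b' i => by ring
  have := h ρ S θ hρ hS hθ hθ1 α β A (fun a i => p a i / r) e w hw he B (fun b i => z b i / r) ?_ ?_
  · simp only [mlkCount_scale A p e w ρ θ r hr]
    exact this
  · intro b hb b' hb' hne
    obtain ⟨i, hi⟩ := hsep b hb b' hb' hne
    refine ⟨i, ?_⟩
    rw [e1, abs_div, abs_of_pos hr, le_div_iff₀ hr, one_mul]
    exact hi
  · intro b hb b' hb' i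
    rw [e1, abs_div, abs_of_pos hr, div_le_iff₀ hr]
    exact hdiam b hb b' hb' i

/-- **LEAF L-252-MLK-CELLS: many cells are occupied** (one family; the form of 06 l.400-410, l.625-632, l.1325-1335).
PLAN.  `γ = 1/(n-1)`, `P = n/(n-1) = 1 + γ`.   `m_b^P = (m_b^n)^γ ≤ K^γ mlkCount^γ`;  `mlk_scaled`: `∑ m_b^P ≤ K^γ R W^{nγ}`, `R = C (ρ/θ)^{n²+n} S^ε`, `W = ∑_A w` (`Finset.prod_const`, `Finset.card_univ`, `Fintype.card_fin`).
Power mean (`Real.inner_le_Lp_mul_Lq` with `f = 1`, exponents `n`, `P`;  or `Real.rpow_arith_mean_le_arith_mean_rpow`): `∑ m_b ≤ (#B)^{1/n} (∑ m_b^P)^{(n-1)/n}`;  raise to the power `n`. -/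
theorem mlk_cells.{u, v} (n : ℕ) (hn : 2 ≤ n) (ε : ℝ) (hε : 0 < ε) : ∃ C : ℝ, 0 < C ∧ ∀ (r ρ S θ K : ℝ), 0 < r → 1 ≤ ρ → ρ ≤ S → 0 < θ → θ ≤ 1 → 0 ≤ K →
    ∀ (α : Type u) (β : Type v) (A : Finset α) (p e : α → Fin n → ℝ) (w : α → ℝ), (∀ a, 0 ≤ w a) →
    (∀ a ∈ A, ∀ k, |e a k| ≤ 1) → ∀ (B : Finset β) (z : β → Fin n → ℝ),
    (∀ b ∈ B, ∀ b' ∈ B, b ≠ b' → ∃ i, r ≤ |z b i - z b' i|) → (∀ b ∈ B, ∀ b' ∈ B, ∀ i, |z b i - z b' i| ≤ S * r) →
    ∀ m : β → ℝ, (∀ b ∈ B, 0 ≤ m b) → (∀ b ∈ B, m b ^ n ≤ K * mlkCount (fun _ => A) p e w (ρ * r) θ (z b)) →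
    (∑ b ∈ B, m b) ^ n ≤ B.card * K * (C * (ρ / θ) ^ (n ^ 2 + n) * S ^ ε) ^ (n - 1) * (∑ a ∈ A, w a) ^ n := by
  obtain ⟨C, hC, h⟩ := mlk_scaled.{u, v} n hn ε hε
  refine ⟨C, hC, ?_⟩
  intro r ρ S θ K hr hρ hS hθ hθ1 hK α β A p e w hw he B z hsep hdiam m hm hmK
  have h1 := h r ρ S θ hr hρ hS hθ hθ1 α β (fun _ => A) p e w hw (fun _ => he) B z hsep hdiam
  obtain ⟨k, rfl⟩ : ∃ k, n = k + 1 := ⟨n - 1, by omega⟩
  have hk : 1 ≤ k := by omega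
  have hk0 : (0 : ℝ) < k := by exact_mod_cast hk
  rw [Nat.add_sub_cancel]
  obtain ⟨γ, hγ⟩ : ∃ γ : ℝ, γ = 1 / (((k + 1 : ℕ) : ℝ) - 1) := ⟨_, rfl⟩
  rw [← hγ] at h1
  have hγk : γ = 1 / k := by rw [hγ]; push_cast; ring_nf
  have hγ0 : 0 < γ := by rw [hγk]; positivity
  have hγ1 : γ * k = 1 := by rw [hγk]; field_simp
  obtain ⟨R, hR⟩ : ∃ R : ℝ, R = C * (ρ / θ) ^ ((k + 1) ^ 2 + (k + 1)) * S ^ ε := ⟨_, rfl⟩
  rw [← hR] at h1 ⊢
  have hS0 : 0 < S := by linarith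
  have hR0 : 0 ≤ R := by rw [hR]; positivity
  obtain ⟨W, hW⟩ : ∃ W : ℝ, W = ∑ a ∈ A, w a := ⟨_, rfl⟩
  rw [← hW] at h1 ⊢
  have hW0 : 0 ≤ W := hW ▸ Finset.sum_nonneg fun a _ => hw a
  rw [Finset.prod_const, Finset.card_univ, Fintype.card_fin] at h1
  -- a `k`-th power undoes the exponent `γ`
  have hroot : ∀ x : ℝ, 0 ≤ x → (x ^ γ) ^ k = x := by
    intro x hx
    rw [← Real.rpow_natCast, ← Real.rpow_mul hx, hγ1, Real.rpow_one]
  have hcnt : ∀ b, 0 ≤ mlkCount (fun _ => A) p e w (ρ * r) θ (z b) := fun b => mlkCount_nonneg _ _ _ _ hw _ _ _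
  -- the power mean
  have h2 := Real.rpow_sum_le_const_mul_sum_rpow B m (p := 1 + γ) (by linarith)
  have e1 : ∑ b ∈ B, |m b| = ∑ b ∈ B, m b := Finset.sum_congr rfl fun b hb => abs_of_nonneg (hm b hb)
  have hM0 : 0 ≤ ∑ b ∈ B, m b := Finset.sum_nonneg hm
  rw [e1, add_sub_cancel_left] at h2
  have h3 : ∑ b ∈ B, |m b| ^ (1 + γ) ≤ K ^ γ * (R * (W ^ γ) ^ (k + 1)) := by
    calc ∑ b ∈ B, |m b| ^ (1 + γ) ≤ ∑ b ∈ B, K ^ γ * mlkCount (fun _ => A) p e w (ρ * r) θ (z b) ^ γ := by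
          refine Finset.sum_le_sum fun b hb => ?_
          have h4 : |m b| ^ (1 + γ) = (m b ^ (k + 1)) ^ γ := by
            rw [abs_of_nonneg (hm b hb), ← Real.rpow_natCast, ← Real.rpow_mul (hm b hb)]
            congr 1
            push_cast
            linarith
          rw [h4, ← Real.mul_rpow hK (hcnt b)]
          exact Real.rpow_le_rpow (pow_nonneg (hm b hb) _) (hmK b hb) hγ0.le
      _ = K ^ γ * ∑ b ∈ B, mlkCount (fun _ => A) p e w (ρ * r) θ (z b) ^ γ := by rw [Finset.mul_sum]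
      _ ≤ _ := mul_le_mul_of_nonneg_left h1 (Real.rpow_nonneg hK _)
  have h5 : (∑ b ∈ B, m b) ^ (k + 1) = ((∑ b ∈ B, m b) ^ (1 + γ)) ^ k := by
    rw [← Real.rpow_natCast, ← Real.rpow_natCast, ← Real.rpow_mul hM0]
    congr 1
    push_cast
    linarith
  have hB0 : (0 : ℝ) ≤ B.card := Nat.cast_nonneg _
  rw [h5]
  calc ((∑ b ∈ B, m b) ^ (1 + γ)) ^ k ≤ ((B.card : ℝ) ^ γ * (K ^ γ * (R * (W ^ γ) ^ (k + 1)))) ^ k := by
        refine pow_le_pow_left₀ (Real.rpow_nonneg hM0 _) (h2.trans ?_) k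
        exact mul_le_mul_of_nonneg_left h3 (Real.rpow_nonneg hB0 _)
    _ = (((B.card : ℝ) ^ γ) ^ k) * ((K ^ γ) ^ k) * R ^ k * (((W ^ γ) ^ k) ^ (k + 1)) := by
        rw [mul_pow, mul_pow, mul_pow, ← pow_mul, ← pow_mul, mul_comm (k + 1) k]
        ring
    _ = _ := by rw [hroot _ hB0, hroot _ hK, hroot _ hW0]

end Claimed.Agent.R252
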