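import Claimed.Agent.R252.Mlk.Grid

/-!
# Row 252, BOX 2 (unit MLK), file 2: MULTILINEAR KAKEYA FOR SMALL SLOPES, INDUCTION ON SCALES            (architect helper206)            CONTRACT
PAPER-FREE.  `Fin n → ℝ`, coordinates only (no norms).
* `mlkCube q L` half-open cube, `mlkSh j c s ρ` sheared tube around the graph `x_i = c_i + s_i x_j` (`i ≠ j`) over the `j`-th axis;
* `mlk_geo`   : inside a cube of side `L D` a tube with slopes `≤ 1/D` and radius `ρ ≤ L` meets only subcubes of side `L` in a window of `5` in every direction `i ≠ j`;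
* `mlk_small` : points with at most `μ` of them in any `ρ`-cube, in a cube of side `ρ D^M`: `∑_b ∏_j (∑_{a ∈ A j, z_b ∈ T_a} w_a)^{1/(n-1)} ≤ μ ((n 5^n)^2)^M ∏_j (∑_{A j} w)^{1/(n-1)}`.
Every `sorry` is a leaf `L-252-MLK-*`.  Statements are frozen; auxiliary lemmas directly above your theorem, prefix `mlk_`; edit only your block.
-/

set_option autoImplicit false
open scoped BigOperators

namespace Claimed.Agent.R252

/-- half-open cube with corner `q` and side `L` -/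
def mlkCube {n : ℕ} (q : Fin n → ℝ) (L : ℝ) : Set (Fin n → ℝ) := {x | ∀ i, q i ≤ x i ∧ x i < q i + L}

/-- sheared tube of radius `ρ` around the graph `x_i = c_i + s_i x_j`, `i ≠ j` (the entries `c j`, `s j` are not used) -/
def mlkSh {n : ℕ} (j : Fin n) (c s : Fin n → ℝ) (ρ : ℝ) : Set (Fin n → ℝ) := {x | ∀ i, i ≠ j → |x i - c i - s i * x j| ≤ ρ}

/-- **LEAF L-252-MLK-GEO.**
PLAN.  `u i = (c i + s i * q j - q i) / L`, `k i = ⌊u i⌋ - 3`.  Let `y` be in the subcube `x` and in the tube.  `0 ≤ y j - q j ≤ L D` (`x j ≤ D - 1`), so `|s i (y j - q j)| ≤ L`, `|y i - c i - s i q j| ≤ ρ + L ≤ 2 L`,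
`(y i - q i)/L ∈ [u i - 2, u i + 2]` and `x i ≤ (y i - q i)/L < x i + 1`:  `u i - 3 < x i ≤ u i + 2`; `Int.floor_le`, `Int.lt_floor_add_one`, casts. -/
theorem mlk_geo {n D : ℕ} (hD : 1 ≤ D) (j : Fin n) (c s q : Fin n → ℝ) (ρ L : ℝ) (hρ : 0 < ρ) (hL : ρ ≤ L)
    (hs : ∀ i, i ≠ j → |s i| ≤ 1 / (D : ℝ)) :
    ∃ k : Fin n → ℤ, ∀ x : Fin n → Fin D, (∃ y ∈ mlkCube (fun i => q i + L * ((x i : ℕ) : ℝ)) L, y ∈ mlkSh j c s ρ) →
      ∀ i, i ≠ j → k i < ((x i : ℕ) : ℤ) ∧ ((x i : ℕ) : ℤ) ≤ k i + 5 := by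
  have hL0 : 0 < L := lt_of_lt_of_le hρ hL
  have hD0 : (0 : ℝ) < D := by exact_mod_cast hD
  refine ⟨fun i => ⌊(c i + s i * q j - q i) / L⌋ - 3, ?_⟩
  rintro x ⟨y, hy, hyT⟩ i hij
  show ⌊(c i + s i * q j - q i) / L⌋ - 3 < ((x i : ℕ) : ℤ) ∧ ((x i : ℕ) : ℤ) ≤ ⌊(c i + s i * q j - q i) / L⌋ - 3 + 5
  set U := (c i + s i * q j - q i) / L with hU
  have hLU : L * U = c i + s i * q j - q i := by
    rw [hU]
    field_simp
  have h1 : q i + L * ((x i : ℕ) : ℝ) ≤ y i ∧ y i < q i + L * ((x i : ℕ) : ℝ) + L := hy i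
  have h2 : q j + L * ((x j : ℕ) : ℝ) ≤ y j ∧ y j < q j + L * ((x j : ℕ) : ℝ) + L := hy j
  have h3 : |y i - c i - s i * y j| ≤ ρ := hyT i hij
  have hxj : ((x j : ℕ) : ℝ) + 1 ≤ D := by exact_mod_cast (x j).2
  have hxj0 : (0 : ℝ) ≤ ((x j : ℕ) : ℝ) := Nat.cast_nonneg _
  have hv0 : 0 ≤ y j - q j := by nlinarith [h2.1, mul_nonneg hL0.le hxj0]
  have hv1 : y j - q j ≤ L * D := by nlinarith [h2.2]
  have hsv : |s i * (y j - q j)| ≤ L := by
    rw [abs_mul, abs_of_nonneg hv0]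
    calc |s i| * (y j - q j) ≤ (1 / (D : ℝ)) * (L * D) := mul_le_mul (hs i hij) hv1 hv0 (by positivity)
      _ = L := by field_simp
  have h4 : |y i - q i - L * U| ≤ 2 * L := by
    rw [hLU]
    have : y i - q i - (c i + s i * q j - q i) = (y i - c i - s i * y j) + s i * (y j - q j) := by ring
    rw [this]
    calc |(y i - c i - s i * y j) + s i * (y j - q j)| ≤ |y i - c i - s i * y j| + |s i * (y j - q j)| := abs_add_le _ _
      _ ≤ ρ + L := add_le_add h3 hsv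
      _ ≤ 2 * L := by linarith
  rw [abs_le] at h4
  have h5 : ((x i : ℕ) : ℝ) ≤ U + 2 := by
    have : L * ((x i : ℕ) : ℝ) ≤ L * (U + 2) := by nlinarith [h1.1, h4.2]
    exact le_of_mul_le_mul_left this hL0
  have h6 : U - 3 < ((x i : ℕ) : ℝ) := by
    have : L * (U - 3) < L * ((x i : ℕ) : ℝ) := by nlinarith [h1.2, h4.1]
    exact lt_of_mul_lt_mul_left this hL0.le
  have f1 := Int.floor_le U
  have f2 := Int.lt_floor_add_one U
  constructor
  · have : ((⌊U⌋ - 3 : ℤ) : ℝ) < (((x i : ℕ) : ℤ) : ℝ) := by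
      push_cast
      linarith
    exact_mod_cast this
  · have : (((x i : ℕ) : ℤ) : ℝ) < ((⌊U⌋ - 3 + 5 + 1 : ℤ) : ℝ) := by
      push_cast
      linarith
    have : ((x i : ℕ) : ℤ) < ⌊U⌋ - 3 + 5 + 1 := by exact_mod_cast this
    omega

/-- every term of the left side is at most the product of the full weights -/
theorem mlk_small_term {n : ℕ} {α : Type*} (γ : ℝ) (hγ : 0 ≤ γ) (A : Fin n → Finset α) (w : α → ℝ) (hw : ∀ a, 0 ≤ w a)
    (p : Fin n → α → Prop) [∀ j a, Decidable (p j a)] :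
    ∏ j, (∑ a ∈ A j, if p j a then w a else 0) ^ γ ≤ ∏ j, (∑ a ∈ A j, w a) ^ γ := by
  have h0 : ∀ j, 0 ≤ ∑ a ∈ A j, if p j a then w a else 0 := fun j => Finset.sum_nonneg fun a _ => by
    split_ifs
    · exact hw a
    · exact le_rfl
  refine Finset.prod_le_prod (fun j _ => Real.rpow_nonneg (h0 j) _) fun j _ => ?_
  refine Real.rpow_le_rpow (h0 j) (Finset.sum_le_sum fun a _ => ?_) hγ
  split_ifs
  · exact le_rfl
  · exact hw a

/-- the index of the subcube of side `L` of a point of the cube `mlkCube q (L * D)` -/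
noncomputable def mlkIdx {n : ℕ} (D : ℕ) (hD : 1 ≤ D) (q : Fin n → ℝ) (L : ℝ) (y : Fin n → ℝ) : Fin n → Fin D :=
  fun i => ⟨min ⌊(y i - q i) / L⌋₊ (D - 1), by omega⟩

theorem mlk_idx_mem {n : ℕ} (D : ℕ) (hD : 1 ≤ D) (q : Fin n → ℝ) (L : ℝ) (hL : 0 < L) (y : Fin n → ℝ)
    (hy : y ∈ mlkCube q (L * D)) : y ∈ mlkCube (fun i => q i + L * (((mlkIdx D hD q L y i : Fin D) : ℕ) : ℝ)) L := by
  intro i
  have h1 : q i ≤ y i ∧ y i < q i + L * D := hy i
  have hr0 : 0 ≤ (y i - q i) / L := div_nonneg (by linarith [h1.1]) hL.le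
  have hrD : (y i - q i) / L < D := by
    rw [div_lt_iff₀ hL]
    nlinarith [h1.2]
  have hfl : ⌊(y i - q i) / L⌋₊ < D := (Nat.floor_lt hr0).2 hrD
  have hidx : ((mlkIdx D hD q L y i : Fin D) : ℕ) = ⌊(y i - q i) / L⌋₊ := by
    show min ⌊(y i - q i) / L⌋₊ (D - 1) = ⌊(y i - q i) / L⌋₊
    omega
  have f1 := Nat.floor_le hr0
  have f2 := Nat.lt_floor_add_one ((y i - q i) / L)
  rw [le_div_iff₀ hL] at f1
  rw [div_lt_iff₀ hL] at f2
  show q i + L * (((mlkIdx D hD q L y i : Fin D) : ℕ) : ℝ) ≤ y i ∧ y i < q i + L * (((mlkIdx D hD q L y i : Fin D) : ℕ) : ℝ) + L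
  rw [hidx]
  constructor
  · nlinarith
  · nlinarith

open Classical in
/-- **LEAF L-252-MLK-SMALL: induction on scales.**
PLAN.  Induction on `M`, everything else generalised.  `M = 0`: `B = B.filter (z b ∈ mlkCube q ρ)` has `≤ μ` elements and every term is `≤ ∏_j (∑_{A j} w)^γ` (`Real.rpow_le_rpow`, `Finset.prod_le_prod`).
`M + 1`: `L = ρ D^M`, `X b i = ⌊(z b i - q i)/L⌋₊ < D`; `Finset.sum_fiberwise` over `x : Fin n → Fin D`; the fibre `B_x` lies in `mlkCube (q + L x) L`; induction hypothesis for `B_x` and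
`A' j = (A j).filter (fun a => ∃ y ∈ mlkCube (q + L x) L, y ∈ mlkSh j (c j a) (s j a) ρ)` (for `b ∈ B_x` the inner sums over `A j` and `A' j` agree: `Finset.sum_filter`, the dropped terms vanish);
`∑_{A' j} w = ∑_{a ∈ A j} if (tube a meets subcube x) then w a else 0`; `mlk_step` with `k` from `mlk_geo` (`choose`; `ρ ≤ L` since `1 ≤ D^M`). -/
theorem mlk_small (n D : ℕ) (hn : 2 ≤ n) (hD : 1 ≤ D) (ρ : ℝ) (hρ : 0 < ρ) (μ : ℕ) {α β : Type*}
    (c s : Fin n → α → Fin n → ℝ) (w : α → ℝ) (hw : ∀ a, 0 ≤ w a) (z : β → Fin n → ℝ) (M : ℕ)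
    (A : Fin n → Finset α) (B : Finset β) (q : Fin n → ℝ) (hs : ∀ j, ∀ a ∈ A j, ∀ i, i ≠ j → |s j a i| ≤ 1 / (D : ℝ))
    (hB : ∀ b ∈ B, z b ∈ mlkCube q (ρ * (D : ℝ) ^ M))
    (hμ : ∀ q' : Fin n → ℝ, (B.filter fun b => z b ∈ mlkCube q' ρ).card ≤ μ) :
    ∑ b ∈ B, ∏ j, (∑ a ∈ A j, if z b ∈ mlkSh j (c j a) (s j a) ρ then w a else 0) ^ (1 / ((n : ℝ) - 1))
      ≤ μ * (((n : ℝ) * 5 ^ n) ^ 2) ^ M * ∏ j, (∑ a ∈ A j, w a) ^ (1 / ((n : ℝ) - 1)) := by
  have hγ : 0 ≤ 1 / ((n : ℝ) - 1) := by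
    have : (2 : ℝ) ≤ n := by exact_mod_cast hn
    exact div_nonneg zero_le_one (by linarith)
  have hD0 : (1 : ℝ) ≤ D := by exact_mod_cast hD
  have hPi : ∀ A' : Fin n → Finset α, 0 ≤ ∏ j, (∑ a ∈ A' j, w a) ^ (1 / ((n : ℝ) - 1)) := fun A' =>
    Finset.prod_nonneg fun j _ => Real.rpow_nonneg (Finset.sum_nonneg fun a _ => hw a) _
  induction M generalizing A B q with
  | zero =>
    have hcard : B.card ≤ μ := by
      have : B.filter (fun b => z b ∈ mlkCube q ρ) = B := by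
        refine Finset.filter_true_of_mem fun b hb => ?_
        simpa using hB b hb
      rw [← this]
      exact hμ q
    calc ∑ b ∈ B, ∏ j, (∑ a ∈ A j, if z b ∈ mlkSh j (c j a) (s j a) ρ then w a else 0) ^ (1 / ((n : ℝ) - 1))
        ≤ ∑ _b ∈ B, ∏ j, (∑ a ∈ A j, w a) ^ (1 / ((n : ℝ) - 1)) :=
          Finset.sum_le_sum fun b _ => mlk_small_term _ hγ A w hw _
      _ = (B.card : ℝ) * ∏ j, (∑ a ∈ A j, w a) ^ (1 / ((n : ℝ) - 1)) := by rw [Finset.sum_const, nsmul_eq_mul]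
      _ ≤ (μ : ℝ) * ∏ j, (∑ a ∈ A j, w a) ^ (1 / ((n : ℝ) - 1)) :=
          mul_le_mul_of_nonneg_right (by exact_mod_cast hcard) (hPi A)
      _ = μ * (((n : ℝ) * 5 ^ n) ^ 2) ^ 0 * ∏ j, (∑ a ∈ A j, w a) ^ (1 / ((n : ℝ) - 1)) := by rw [pow_zero, mul_one]
  | succ M ih =>
    set L : ℝ := ρ * (D : ℝ) ^ M with hLd
    have hDM : (1 : ℝ) ≤ (D : ℝ) ^ M := one_le_pow₀ hD0
    have hρL : ρ ≤ L := by
      rw [hLd]
      nlinarith
    have hL0 : 0 < L := lt_of_lt_of_le hρ hρL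
    have hLD : ρ * (D : ℝ) ^ (M + 1) = L * D := by
      rw [hLd, pow_succ]
      ring
    -- the subcubes
    set Q : (Fin n → Fin D) → Set (Fin n → ℝ) := fun x => mlkCube (fun i => q i + L * (((x i : Fin D) : ℕ) : ℝ)) L with hQ
    set P : Fin n → α → (Fin n → Fin D) → Prop := fun j a x => ∃ y ∈ Q x, y ∈ mlkSh j (c j a) (s j a) ρ with hP
    have hk : ∀ j a, ∃ k : Fin n → ℤ, a ∈ A j → ∀ x, P j a x → ∀ i, i ≠ j → k i < ((x i : ℕ) : ℤ) ∧ ((x i : ℕ) : ℤ) ≤ k i + 5 := by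
      intro j a
      by_cases ha : a ∈ A j
      · obtain ⟨k, hk⟩ := mlk_geo hD j (c j a) (s j a) q ρ L hρ hρL (hs j a ha)
        exact ⟨k, fun _ => hk⟩
      · exact ⟨0, fun h => absurd h ha⟩
    choose k hk using hk
    have hstep := mlk_step n D hn A w hw P k (fun j a ha x hx => hk j a ha x hx)
    -- one fibre
    have hfib : ∀ x : Fin n → Fin D,
        ∑ b ∈ B.filter (fun b => mlkIdx D hD q L (z b) = x),
            ∏ j, (∑ a ∈ A j, if z b ∈ mlkSh j (c j a) (s j a) ρ then w a else 0) ^ (1 / ((n : ℝ) - 1))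
          ≤ μ * (((n : ℝ) * 5 ^ n) ^ 2) ^ M * ∏ j, (∑ a ∈ A j, if P j a x then w a else 0) ^ (1 / ((n : ℝ) - 1)) := by
      intro x
      have hmem : ∀ b ∈ B.filter (fun b => mlkIdx D hD q L (z b) = x), z b ∈ Q x := by
        intro b hb
        rw [Finset.mem_filter] at hb
        have := mlk_idx_mem D hD q L hL0 (z b) (by rw [← hLD]; exact hB b hb.1)
        rw [hb.2] at this
        exact this
      have h := ih (fun j => (A j).filter fun a => P j a x) (B.filter fun b => mlkIdx D hD q L (z b) = x)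
        (fun i => q i + L * (((x i : Fin D) : ℕ) : ℝ)) (fun j a ha => hs j a (Finset.mem_filter.1 ha).1) hmem
        (fun q' => (Finset.card_le_card (by
          intro b hb
          rw [Finset.mem_filter] at hb ⊢
          exact ⟨(Finset.mem_filter.1 hb.1).1, hb.2⟩)).trans (hμ q'))
      have e1 : ∀ j, ∑ a ∈ (A j).filter (fun a => P j a x), w a = ∑ a ∈ A j, if P j a x then w a else 0 := fun j =>
        Finset.sum_filter _ _
      simp only [e1] at h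
      refine le_trans (le_of_eq ?_) h
      refine Finset.sum_congr rfl fun b hb => ?_
      refine Finset.prod_congr rfl fun j _ => ?_
      congr 1
      refine (Finset.sum_filter_of_ne fun a _ hne => ?_).symm
      by_cases hz : z b ∈ mlkSh j (c j a) (s j a) ρ
      · exact ⟨z b, hmem b hb, hz⟩
      · rw [if_neg hz] at hne
        exact absurd rfl hne
    have hC0 : 0 ≤ (μ : ℝ) * (((n : ℝ) * 5 ^ n) ^ 2) ^ M := by positivity
    calc ∑ b ∈ B, ∏ j, (∑ a ∈ A j, if z b ∈ mlkSh j (c j a) (s j a) ρ then w a else 0) ^ (1 / ((n : ℝ) - 1))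
        = ∑ x : Fin n → Fin D, ∑ b ∈ B.filter (fun b => mlkIdx D hD q L (z b) = x),
            ∏ j, (∑ a ∈ A j, if z b ∈ mlkSh j (c j a) (s j a) ρ then w a else 0) ^ (1 / ((n : ℝ) - 1)) :=
          (Finset.sum_fiberwise B (fun b => mlkIdx D hD q L (z b)) _).symm
      _ ≤ ∑ x : Fin n → Fin D, μ * (((n : ℝ) * 5 ^ n) ^ 2) ^ M
            * ∏ j, (∑ a ∈ A j, if P j a x then w a else 0) ^ (1 / ((n : ℝ) - 1)) := Finset.sum_le_sum fun x _ => hfib x
      _ = μ * (((n : ℝ) * 5 ^ n) ^ 2) ^ M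
            * ∑ x : Fin n → Fin D, ∏ j, (∑ a ∈ A j, if P j a x then w a else 0) ^ (1 / ((n : ℝ) - 1)) := by
          rw [Finset.mul_sum]
      _ ≤ μ * (((n : ℝ) * 5 ^ n) ^ 2) ^ M
            * (((n : ℝ) * 5 ^ n) ^ 2 * ∏ j, (∑ a ∈ A j, w a) ^ (1 / ((n : ℝ) - 1))) := mul_le_mul_of_nonneg_left hstep hC0
      _ = μ * (((n : ℝ) * 5 ^ n) ^ 2) ^ (M + 1) * ∏ j, (∑ a ∈ A j, w a) ^ (1 / ((n : ℝ) - 1)) := by
          rw [pow_succ]
          ring

end Claimed.Agent.R252
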